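import Mathlib
import Vale.Agent.P219.Univ.Defs

/-!
# Definitions for the sharp six-dimensional Cartan-Hadamard inequality
-/

open MeasureTheory
open scoped ENNReal ContDiff RealInnerProductSpace

namespace Vale.Agent.P219.Six

open Vale.Agent.P219 Vale.Agent.P219.Univ

noncomputable section

variable {n : ℕ}

/-- Jointly smooth global normal coordinates at every point. -/
structure JointCharts (g : MetricField n) (Exp Log : Space n → Space n → Space n) : Prop where
  smooth_exp : ContDiff ℝ ∞ (fun p : Space n × Space n => Exp p.1 p.2)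
  smooth_log : ContDiff ℝ ∞ (fun p : Space n × Space n => Log p.1 p.2)
  left : ∀ o u, Log o (Exp o u) = u
  right : ∀ o x, Exp o (Log o x) = x
  zero : ∀ o, Exp o 0 = o
  iso : ∀ o u v, g o (fderiv ℝ (Exp o) 0 u) (fderiv ℝ (Exp o) 0 v) = inner ℝ u v
  geo : ∀ o u (t : ℝ), deriv (deriv fun s : ℝ => Exp o (s • u)) t =
    -gam g (Exp o (t • u)) (deriv (fun s : ℝ => Exp o (s • u)) t)
      (deriv (fun s : ℝ => Exp o (s • u)) t)

/-- Defining functions of smooth domains, normalised at infinity. -/
structure Defining (φ : Space n → ℝ) : Prop where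
  smooth : ContDiff ℝ 2 φ
  far : ∃ R : ℝ, ∀ x, R ≤ ‖x‖ → 1 ≤ φ x
  reg : ∀ x, φ x = 0 → fderiv ℝ φ x ≠ 0

/-- A window of regular levels. -/
def RegWindow (φ : Space n → ℝ) (η : ℝ) : Prop :=
  0 < η ∧ η < 1 ∧ ∀ x, |φ x| ≤ η → fderiv ℝ φ x ≠ 0

/-- The sublevel set. -/
def sub (φ : Space n → ℝ) (τ : ℝ) : Set (Space n) := {x | φ x < τ}

/-- Half the squared distance from `a`. -/
def psi (Log : Space n → Space n → Space n) (a x : Space n) : ℝ := ‖Log a x‖ ^ 2 / 2

/-- The length of the gradient. -/
def gradLen (g : MetricField n) (φ : Space n → ℝ) (x : Space n) : ℝ :=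
  gNorm g x (gGrad g φ x)

/-- The unit normal of the level sets. -/
def unitN (g : MetricField n) (φ : Space n → ℝ) (x : Space n) : Space n :=
  (gradLen g φ x)⁻¹ • gGrad g φ x

/-- A cutoff equal to one on `[-1/2, 1/2]` and to zero outside `(-1, 1)`. -/
def bump (s : ℝ) : ℝ := Real.smoothTransition (4 * (1 - s ^ 2) / 3)

/-- The normal, cut off outside the window. -/
def cutN (g : MetricField n) (φ : Space n → ℝ) (η : ℝ) (x : Space n) : Space n :=
  bump (φ x / η) • unitN g φ x

/-- The integral of `h` over the level set `φ = τ`, for `|τ| < η / 2`, as a flux. -/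
def area (g : MetricField n) (φ : Space n → ℝ) (η τ : ℝ) (h : Space n → ℝ) : ℝ :=
  gInt g (sub φ τ) (gDiv g fun y => h y • cutN g φ η y)

/-- The volume density in normal coordinates. -/
def jac (g : MetricField n) (Exp : Space n → Space n → Space n) (x u : Space n) : ℝ :=
  dens g (Exp x u) * |(fderiv ℝ (Exp x) u).det|

/-- The velocity of a geodesic. -/
def vel (Exp : Space n → Space n → Space n) (x v : Space n) (t : ℝ) : Space n :=
  fderiv ℝ (Exp x) (t • v) v

/-- The first time at which the geodesic reaches the level `τ`. -/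
def exitT (Exp : Space n → Space n → Space n) (φ : Space n → ℝ) (τ : ℝ) (x v : Space n) : ℝ :=
  sInf {t : ℝ | 0 < t ∧ τ ≤ φ (Exp x (t • v))}

/-- The cosine with the normal. -/
def cosN (g : MetricField n) (φ : Space n → ℝ) (x V : Space n) : ℝ :=
  fderiv ℝ φ x V / gradLen g φ x

/-- The measure of directions. -/
def dirs (n : ℕ) : Measure (Metric.sphere (0 : Space n) 1) :=
  (volume : Measure (Space n)).toSphere

/-- The coefficient in the scalar inequality. -/
def alpha : ℝ := 17 / 360

/-- The boundary weight in the scalar inequality. -/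
def gFun (t : ℝ) : ℝ := 2 * t / 3 + 2 * t ^ 3 / 15

/-- The integrand of the regularised first variation; `ρ` is the squared distance, `u` the
normal derivative of half of it, `h` the curvature of the minimiser. -/
def beta (h ε ρ u : ℝ) : ℝ :=
  5 / (ρ + ε) - 2 * (ρ - u ^ 2) / (ρ + ε) ^ 2 - h * u / (ρ + ε)

/-- The kernel, at the scale `l`. -/
def Reps (l ε ρ u : ℝ) : ℝ := 1 + 10 / 17 / l ^ 2 * beta (5 * l) ε ρ u

/-- The kernel between two points of a hypersurface. -/
def kernel (g : MetricField 6) (Log : Space 6 → Space 6 → Space 6) (φ : Space 6 → ℝ)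
    (l ε : ℝ) (a z : Space 6) : ℝ :=
  Reps l ε (2 * psi Log a z) (fderiv ℝ (psi Log a) z (unitN g φ z))

/-- The deficit that is minimised. -/
def deficit (g : MetricField 6) (c : ℝ) (E : Set (Space 6)) : ℝ :=
  (Univ.gPer g E).toReal - c * Univ.gVol g E ^ (5 / 6 : ℝ)

end

end Vale.Agent.P219.Six
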