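import Mathlib
import Vale.Agent.P219.Six.Defs
import Vale.Agent.P219.Univ.GaussStd

/-!
# Integrals over the five-sphere
-/

open MeasureTheory Set Real Filter
open scoped ENNReal RealInnerProductSpace Pointwise

namespace Vale.Agent.P219.Six

open Vale.Agent.P219 Vale.Agent.P219.Univ

noncomputable section

theorem dirs_univ : (dirs 6) univ = ENNReal.ofReal (π ^ 3) := by
  rw [dirs, Measure.toSphere_apply_univ,
    InnerProductSpace.volume_ball_of_dim_even (k := 3) (by simp), finrank_euclideanSpace_fin,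
    ENNReal.ofReal_one, one_pow, one_mul, ← ENNReal.ofReal_natCast,
    ← ENNReal.ofReal_mul (by positivity)]
  congr 1
  simp [Nat.factorial]
  ring

theorem dirs_neg {n : ℕ} :
    MeasurePreserving (fun v : Metric.sphere (0 : Space n) 1 => -v) (dirs n) (dirs n) := by
  have hm : Measurable fun v : Metric.sphere (0 : Space n) 1 => -v := continuous_neg.measurable
  refine ⟨hm, Measure.ext fun s hs => ?_⟩
  rw [Measure.map_apply hm hs, dirs, Measure.toSphere_apply' _ hs,
    Measure.toSphere_apply' _ (hm hs)]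
  congr 1
  have e : Ioo (0 : ℝ) 1 • (((↑) : Metric.sphere (0 : Space n) 1 → Space n) ''
      ((fun v => -v) ⁻¹' s)) = Neg.neg ⁻¹' (Ioo (0 : ℝ) 1 • ((↑) '' s)) := by
    ext x
    simp only [Set.mem_smul, Set.mem_image, Set.mem_preimage]
    constructor
    · rintro ⟨r, hr, _, ⟨v, hv, rfl⟩, rfl⟩
      exact ⟨r, hr, _, ⟨-v, hv, rfl⟩, by simp⟩
    · rintro ⟨r, hr, _, ⟨v, hv, rfl⟩, h⟩
      exact ⟨r, hr, _, ⟨-v, by simpa using hv, rfl⟩, by simpa using congrArg Neg.neg h⟩
  rw [e, Measure.measure_preimage_neg]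

theorem pow_mul_stdDens_le (z : Space 6) :
    (1 + ‖z‖ ^ 4) * stdDens z ≤ 33 * Real.exp (-(1 / 4) * ‖z‖ ^ 2) := by
  have h1 := Real.quadratic_le_exp_of_nonneg (x := 1 / 4 * ‖z‖ ^ 2) (by positivity)
  have e : stdDens z = Real.exp (-(1 / 4) * ‖z‖ ^ 2) / Real.exp (1 / 4 * ‖z‖ ^ 2) := by
    rw [← Real.exp_sub]; unfold stdDens; ring_nf
  rw [e, mul_div_assoc', div_le_iff₀ (Real.exp_pos _), mul_right_comm]
  refine mul_le_mul_of_nonneg_right ?_ (Real.exp_pos _).le
  nlinarith [sq_nonneg ‖z‖, sq_nonneg (‖z‖ ^ 2)]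

theorem integrable_quartic {f : Space 6 → ℝ} (hf : Continuous f) {C : ℝ}
    (hC : ∀ z, |f z| ≤ C * (1 + ‖z‖ ^ 4)) : Integrable fun z => f z * stdDens z := by
  have hi := (GaussianFourier.integrable_cexp_neg_mul_sq_norm_add
    (V := Space 6) (show 0 < ((1 / 4 : ℝ) : ℂ).re by simp) 0 0).re
  have hi' : Integrable fun z : Space 6 => C * (33 * Real.exp (-(1 / 4) * ‖z‖ ^ 2)) := by
    refine ((hi.congr (ae_of_all _ fun z => ?_)).const_mul 33).const_mul C
    simp [Complex.exp_re, ← Complex.ofReal_pow]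
  refine hi'.mono' (hf.mul contDiff_stdDens.continuous).aestronglyMeasurable
    (ae_of_all _ fun z => ?_)
  have hC0 : 0 ≤ C := by
    have := (abs_nonneg (f 0)).trans (hC 0)
    simpa using this
  rw [Real.norm_eq_abs, abs_mul, abs_of_pos (stdDens_pos z)]
  refine (mul_le_mul_of_nonneg_right (hC z) (stdDens_pos z).le).trans ?_
  rw [mul_assoc]
  exact mul_le_mul_of_nonneg_left (pow_mul_stdDens_le z) hC0

theorem abs_inner_le {e : Space 6} (he : ‖e‖ = 1) (z : Space 6) : |⟪z, e⟫| ≤ ‖z‖ := by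
  have := abs_real_inner_le_norm z e
  rwa [he, mul_one] at this

theorem pow_le_quartic {e : Space 6} (he : ‖e‖ = 1) (z : Space 6) {j : ℕ} (hj : j ≤ 4) :
    |⟪z, e⟫| ^ j ≤ 1 + ‖z‖ ^ 4 := by
  refine (pow_le_pow_left₀ (abs_nonneg _) (abs_inner_le he z) j).trans ?_
  rcases le_total ‖z‖ 1 with h | h
  · nlinarith [pow_le_one₀ (norm_nonneg z) h (n := j), pow_nonneg (norm_nonneg z) 4]
  · nlinarith [pow_le_pow_right₀ h hj]

theorem integrable_inner_pow {e : Space 6} (he : ‖e‖ = 1) {j : ℕ} (hj : j ≤ 4) :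
    Integrable fun z : Space 6 => ⟪z, e⟫ ^ j * stdDens z :=
  integrable_quartic (by fun_prop) (C := 1) fun z => by
    rw [abs_pow, one_mul]; exact pow_le_quartic he z hj

theorem fourth_moment {e : Space 6} (he : ‖e‖ = 1) :
    ∫ z, ⟪z, e⟫ ^ 4 * stdDens z = 3 * ∫ z : Space 6, stdDens z := by
  have hc : ContDiff ℝ 1 fun z : Space 6 => ⟪z, e⟫ ^ 3 :=
    (contDiff_id.inner ℝ contDiff_const).pow 3
  have hd : ∀ z : Space 6, fderiv ℝ (fun z : Space 6 => ⟪z, e⟫ ^ 3) z e = 3 * ⟪z, e⟫ ^ 2 := by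
    intro z
    have h : HasFDerivAt (fun z : Space 6 => ⟪z, e⟫) (innerSL ℝ e) z := by
      rw [show (fun z : Space 6 => ⟪z, e⟫) = innerSL ℝ e from
        funext fun z => real_inner_comm e z]
      exact (innerSL ℝ e).hasFDerivAt
    rw [fderiv_fun_pow 3 h.differentiableAt, h.fderiv]
    simp [real_inner_self_eq_norm_sq, he]
  have h := stein hc e (integrable_inner_pow he (by norm_num))
    ((integrable_inner_pow he le_rfl).congr (ae_of_all _ fun z => by ring))
    (by simp_rw [hd, mul_assoc]; exact (integrable_inner_pow he (by norm_num)).const_mul 3)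
  have h2 := second_moment e
  rw [he, one_pow, one_mul] at h2
  simp_rw [hd, mul_assoc, integral_const_mul, sq] at h
  rw [h2] at h
  rw [← h]
  exact integral_congr_ae (ae_of_all _ fun z => by ring)

/-- Splitting a homogeneous Gaussian integral. -/
instance {n : ℕ} : IsFiniteMeasure (dirs n) := by unfold dirs; infer_instance

theorem gauss_split {P : Space 6 → ℝ} {k : ℕ}
    (hh : ∀ r : ℝ, 0 < r → ∀ v, P (r • v) = r ^ k * P v) :
    ∫ z, P z * stdDens z =
      (∫ v, P v ∂dirs 6) * ∫ r in Ioi (0 : ℝ), r ^ (5 + k) * Real.exp (-(1 / 2) * r ^ 2) := by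
  set μ := (volume : Measure (Space 6))
  set F := fun z : Space 6 => P z * stdDens z with hF
  calc ∫ z, F z = ∫ x : ({(0 : Space 6)}ᶜ : Set (Space 6)), F x.1 ∂(μ.comap (↑)) := by
        rw [integral_subtype_comap (measurableSet_singleton _).compl F, restrict_compl_singleton]
    _ = ∫ x, P x.1 * ((x.2 : ℝ) ^ k * Real.exp (-(1 / 2) * (x.2 : ℝ) ^ 2))
          ∂μ.toSphere.prod (.volumeIoiPow 5) := by
        have := μ.measurePreserving_homeomorphUnitSphereProd.integral_comp
          (Homeomorph.measurableEmbedding _)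
          (fun x => P x.1 * ((x.2 : ℝ) ^ k * Real.exp (-(1 / 2) * (x.2 : ℝ) ^ 2)))
        simp only [finrank_euclideanSpace_fin] at this
        rw [← this]
        refine integral_congr_ae (ae_of_all _ fun x => ?_)
        have hx : 0 < ‖(x : Space 6)‖ := norm_pos_iff.2 x.2
        simp only [homeomorphUnitSphereProd_apply_snd_coe, homeomorphUnitSphereProd_apply_fst_coe,
          hF, stdDens]
        rw [hh _ (inv_pos.2 hx), inv_pow]
        field_simp
    _ = (∫ v, P v ∂dirs 6) * ∫ r : Ioi (0 : ℝ),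
          (r : ℝ) ^ k * Real.exp (-(1 / 2) * (r : ℝ) ^ 2) ∂.volumeIoiPow 5 :=
        integral_prod_mul (μ := dirs 6) (fun v : Metric.sphere (0 : Space 6) 1 => P v)
          (fun r : Ioi (0 : ℝ) => (r : ℝ) ^ k * Real.exp (-(1 / 2) * (r : ℝ) ^ 2))
    _ = _ := by
        congr 1
        simp only [Measure.volumeIoiPow, ENNReal.ofReal]
        rw [integral_withDensity_eq_integral_smul, integral_subtype_comap measurableSet_Ioi
          fun a : ℝ => Real.toNNReal (a ^ 5) • (a ^ k * Real.exp (-(1 / 2) * a ^ 2))]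
        · refine setIntegral_congr_fun measurableSet_Ioi fun x hx => ?_
          rw [NNReal.smul_def, Real.coe_toNNReal _ (pow_nonneg (mem_Ioi.1 hx).le _), smul_eq_mul,
            pow_add]
          ring
        · exact (measurable_subtype_coe.pow_const _).real_toNNReal

theorem radial_five {j : ℕ} (m : ℕ) (hj : j = 2 * m + 1) :
    ∫ r in Ioi (0 : ℝ), r ^ j * Real.exp (-(1 / 2) * r ^ 2) = 2 ^ m * (m.factorial : ℝ) := by
  have h := integral_rpow_mul_exp_neg_mul_rpow (p := 2) (q := (j : ℝ)) (b := 1 / 2) two_pos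
    (by have : (0 : ℝ) ≤ j := Nat.cast_nonneg j; linarith) (by norm_num)
  simp only [Real.rpow_natCast, Real.rpow_two] at h
  rw [h, show ((j : ℝ) + 1) / 2 = (m : ℝ) + 1 by rw [hj]; push_cast; ring,
    show -((j : ℝ) + 1) / 2 = -((m + 1 : ℕ) : ℝ) by rw [hj]; push_cast; ring,
    Real.rpow_neg (by norm_num), Real.rpow_natCast, Real.Gamma_nat_eq_factorial, one_div_pow,
    inv_eq_one_div, one_div_one_div, pow_succ]
  ring

theorem half_moment {e : Space 6} {k : ℕ} (hk : Even k) (hk0 : k ≠ 0) :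
    2 * ∫ v, (max ⟪(v : Space 6), e⟫ 0) ^ k ∂dirs 6 = ∫ v, ⟪(v : Space 6), e⟫ ^ k ∂dirs 6 := by
  have hc : ∀ s : ℝ, Continuous fun v : Metric.sphere (0 : Space 6) 1 =>
      (max (s * ⟪(v : Space 6), e⟫) 0) ^ k := fun s => by fun_prop
  have hi : ∀ s : ℝ, Integrable (fun v : Metric.sphere (0 : Space 6) 1 =>
      (max (s * ⟪(v : Space 6), e⟫) 0) ^ k) (dirs 6) := fun s => by
    have : IsFiniteMeasure (dirs 6) := by unfold dirs; infer_instance
    exact (hc s).integrable_of_hasCompactSupport (HasCompactSupport.of_compactSpace _)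
  have h1 := dirs_neg.integral_comp (Homeomorph.neg _).measurableEmbedding
    (fun v : Metric.sphere (0 : Space 6) 1 => (max ⟪(v : Space 6), e⟫ 0) ^ k)
  simp only [coe_neg_sphere, inner_neg_left] at h1
  have ha := hi 1
  have hb := hi (-1)
  simp only [one_mul, neg_one_mul] at ha hb
  rw [two_mul]
  conv_lhs => arg 2; rw [← h1]
  rw [← integral_add ha hb]
  refine integral_congr_ae (ae_of_all _ fun v => ?_)
  dsimp only
  rcases le_total 0 ⟪(v : Space 6), e⟫ with h | h
  · rw [max_eq_left h, max_eq_right (neg_nonpos.2 h), zero_pow hk0, add_zero]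
  · rw [max_eq_right h, max_eq_left (neg_nonneg.2 h), zero_pow hk0, zero_add, hk.neg_pow]

theorem moment_two {e : Space 6} (he : ‖e‖ = 1) :
    ∫ v, (max ⟪(v : Space 6), e⟫ 0) ^ 2 ∂dirs 6 = π ^ 3 / 12 := by
  have h := gauss_split (P := fun z : Space 6 => ⟪z, e⟫ ^ 2) (k := 2)
    fun r _ v => by rw [real_inner_smul_left, mul_pow]
  have h2 := second_moment e
  rw [he, one_pow, one_mul, integral_stdDens] at h2
  simp_rw [sq (⟪_, e⟫ : ℝ)] at h
  rw [radial_five 3 rfl, h2] at h
  have hm := half_moment (e := e) (k := 2) even_two two_ne_zero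
  simp_rw [sq (⟪_, e⟫ : ℝ)] at hm
  rw [← hm] at h
  have hs : Real.sqrt (2 * π) ^ 6 = 8 * π ^ 3 := by
    rw [show Real.sqrt (2 * π) ^ 6 = (Real.sqrt (2 * π) ^ 2) ^ 3 by ring,
      Real.sq_sqrt (by positivity)]
    ring
  rw [hs] at h
  norm_num [Nat.factorial] at h
  linarith

theorem moment_four {e : Space 6} (he : ‖e‖ = 1) :
    ∫ v, (max ⟪(v : Space 6), e⟫ 0) ^ 4 ∂dirs 6 = π ^ 3 / 32 := by
  have h := gauss_split (P := fun z : Space 6 => ⟪z, e⟫ ^ 4) (k := 4)
    fun r _ v => by rw [real_inner_smul_left, mul_pow]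
  rw [radial_five 4 rfl, fourth_moment he, integral_stdDens,
    ← half_moment (e := e) (k := 4) (by decide) (by norm_num)] at h
  have hs : Real.sqrt (2 * π) ^ 6 = 8 * π ^ 3 := by
    rw [show Real.sqrt (2 * π) ^ 6 = (Real.sqrt (2 * π) ^ 2) ^ 3 by ring,
      Real.sq_sqrt (by positivity)]
    ring
  rw [hs] at h
  norm_num [Nat.factorial] at h
  linarith

/-- The measure of directions and the moment of the boundary weight. -/
theorem moments :
    (dirs 6) univ = ENNReal.ofReal (π ^ 3) ∧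
      ∀ e : Space 6, ‖e‖ = 1 →
        ∫ v, (if 0 < ⟪(v : Space 6), e⟫ then gFun ⟪(v : Space 6), e⟫ * ⟪(v : Space 6), e⟫ else 0)
          ∂dirs 6 = 43 * π ^ 3 / 720 := by
  refine ⟨dirs_univ, fun e he => ?_⟩
  have : IsFiniteMeasure (dirs 6) := by unfold dirs; infer_instance
  have hi : ∀ j : ℕ, Integrable (fun v : Metric.sphere (0 : Space 6) 1 =>
      (max ⟪(v : Space 6), e⟫ 0) ^ j) (dirs 6) := fun j =>
    Continuous.integrable_of_hasCompactSupport (by fun_prop) (HasCompactSupport.of_compactSpace _)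
  calc _ = ∫ v, (2 / 3 * (max ⟪(v : Space 6), e⟫ 0) ^ 2 +
        2 / 15 * (max ⟪(v : Space 6), e⟫ 0) ^ 4) ∂dirs 6 := by
        refine integral_congr_ae (ae_of_all _ fun v => ?_)
        dsimp only
        split_ifs with h
        · rw [max_eq_left h.le, gFun]; ring
        · rw [max_eq_right (not_lt.1 h)]; simp
    _ = _ := by
        rw [integral_add ((hi 2).const_mul _) ((hi 4).const_mul _), integral_const_mul,
          integral_const_mul, moment_two he, moment_four he]
        ring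

end

end Vale.Agent.P219.Six
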