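import Mathlib
import Vale.Agent.P219.Six.Defs

/-!
# The scalar inequalities behind the six-dimensional argument
-/

namespace Vale.Agent.P219.Six

theorem star_diag (l t : ℝ) (hl : 0 ≤ l) (ht : 0 ≤ t) :
    0 ≤ 17*l^5-50*t*l^4+10*(3+2*t^2)*l^3+t^2*(480*t+96*t^3-360*l) := by
  have h : 17*l^5-50*t*l^4+10*(3+2*t^2)*l^3+t^2*(480*t+96*t^3-360*l)
     = (l-2*t)^2*(17*l^3+18*t*l^2+(30+24*t^2)*l+120*t+24*t^3) := by ring
  rw [h]; positivity
theorem star_one (l d : ℝ) (hl : 0 ≤ l) (hd : 0 ≤ d) (hd1 : d ≤ 1) :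
    0 ≤ 17*l^5-25*(1+d)*l^4+10*(4+d^2)*l^3+d*(240*(1+d)+48*(1+d^3)-360*l) := by
  nlinarith [sq_nonneg (l-2), sq_nonneg (l-2*d), sq_nonneg (l-1-d), mul_nonneg hl hd, mul_nonneg hl (sq_nonneg (l-1-d)), mul_nonneg hd (sq_nonneg (l-1-d)), mul_nonneg (mul_nonneg hl hl) (mul_nonneg hl (sq_nonneg (l-1-d))), mul_nonneg hl (sq_nonneg (l-2)), mul_nonneg hd (sub_nonneg.2 hd1), sq_nonneg (1-d)]
theorem star (l c d : ℝ) (hl : 0 ≤ l) (hc : 0 ≤ c) (hd : 0 ≤ d) (hc1 : c ≤ 1) (hd1 : d ≤ 1) :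
    0 ≤ 17*l^5+10*(3+c^2+d^2)*l^3-25*(c+d)*l^4+c*d*(240*(c+d)+48*(c^3+d^3)-360*l) := by
  let s := c + d
  let G : ℝ → ℝ := fun p => 17*l^5-25*s*l^4+10*(3+s^2-2*p)*l^3+p*(240*s+48*(s^3-3*s*p)-360*l)
  have hG : 17*l^5+10*(3+c^2+d^2)*l^3-25*(c+d)*l^4+c*d*(240*(c+d)+48*(c^3+d^3)-360*l) = G (c*d) := by
    simp only [G, s]; ring
  rw [hG]
  have hs : 0 ≤ s := by positivity
  have hs2 : s ≤ 2 := by simp only [s]; linarith
  have top : 0 ≤ G (s^2/4) := by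
    have := star_diag l (s/2) hl (by positivity)
    simp only [G]; convert this using 1; ring
  have conc : ∀ a b p : ℝ, a ≤ p → p ≤ b → 0 ≤ G a → 0 ≤ G b → 0 ≤ G p := by
    intro a b p h1 h2 ha hb
    rcases h1.eq_or_lt with h | h
    · exact h ▸ ha
    have hab : 0 < b - a := by linarith
    have e : (b-a) * G p = (b-p) * G a + (p-a) * G b + (b-a) * (144*s*(p-a)*(b-p)) := by
      simp only [G]; ring
    have : 0 ≤ (b-a) * G p := by
      rw [e]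
      have := mul_nonneg (mul_nonneg hs (sub_nonneg.2 h1)) (sub_nonneg.2 h2)
      have := mul_nonneg (sub_nonneg.2 h2) ha
      have := mul_nonneg (sub_nonneg.2 h1) hb
      nlinarith
    exact nonneg_of_mul_nonneg_right this hab
  have hcd : c*d ≤ s^2/4 := by simp only [s]; nlinarith [sq_nonneg (c-d)]
  rcases le_total s 1 with h | h
  · refine conc 0 _ _ (mul_nonneg hc hd) hcd ?_ top
    have h2 : 0 ≤ 17*l^2-25*s*l+10*(3+s^2) := by nlinarith [sq_nonneg (34*l-25*s), sq_nonneg s]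
    have := mul_nonneg (pow_nonneg hl 3) h2
    simp only [G]; nlinarith
  · refine conc (s-1) _ _ (by simp only [s]; nlinarith [mul_nonneg (sub_nonneg.2 hc1) (sub_nonneg.2 hd1)]) hcd ?_ top
    have := star_one l (s-1) hl (by linarith) (by linarith)
    simp only [G]; convert this using 1; ring

theorem base_pos (r w : ℝ) (hw : w ^ 2 ≤ 1) :
    0 < 17 * r ^ 2 + 10 * (3 + 2 * w ^ 2) - 50 * w * r := by
  nlinarith [sq_nonneg (17 * r - 25 * w), sq_nonneg w]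

/-- The regularised kernel dominates a multiple of the singular one. -/
theorem Reps_ge {l ε r w : ℝ} (hl : 0 < l) (hε : 0 < ε) (hw : w ^ 2 ≤ 1) :
    (17 * (l * r) ^ 2 + 10 * (3 + 2 * w ^ 2) - 50 * w * (l * r)) / (17 * l ^ 2 * (r ^ 2 + ε)) ≤
      Reps l ε (r ^ 2) (r * w) := by
  have hs : 0 < r ^ 2 + ε := by positivity
  have key : Reps l ε (r ^ 2) (r * w) -
      (17 * (l * r) ^ 2 + 10 * (3 + 2 * w ^ 2) - 50 * w * (l * r)) / (17 * l ^ 2 * (r ^ 2 + ε)) =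
      ε * (17 * l ^ 2 * (r ^ 2 + ε) + 20 * (1 - w ^ 2)) / (17 * l ^ 2 * (r ^ 2 + ε) ^ 2) := by
    unfold Reps beta
    field_simp
    ring
  have : 0 ≤ ε * (17 * l ^ 2 * (r ^ 2 + ε) + 20 * (1 - w ^ 2)) /
      (17 * l ^ 2 * (r ^ 2 + ε) ^ 2) := by
    have : 0 ≤ 1 - w ^ 2 := by linarith
    positivity
  linarith

theorem Reps_pos {l ε r w : ℝ} (hl : 0 < l) (hε : 0 < ε) (hw : w ^ 2 ≤ 1) :
    0 < Reps l ε (r ^ 2) (r * w) := by
  refine lt_of_lt_of_le ?_ (Reps_ge hl hε hw)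
  have := base_pos (l * r) w hw
  positivity

/-- Nonnegativity in the variables used by the first variation. -/
theorem Reps_nonneg {l ε ρ u : ℝ} (hl : 0 < l) (hε : 0 < ε) (hρ : 0 ≤ ρ) (hu : u ^ 2 ≤ ρ) :
    0 ≤ Reps l ε ρ u := by
  obtain ⟨r, hr, rfl⟩ : ∃ r : ℝ, 0 ≤ r ∧ ρ = r ^ 2 :=
    ⟨Real.sqrt ρ, Real.sqrt_nonneg ρ, (Real.sq_sqrt hρ).symm⟩
  obtain ⟨w, hw, rfl⟩ : ∃ w : ℝ, w ^ 2 ≤ 1 ∧ u = r * w := by
    rcases hr.eq_or_lt with h | h
    · exact ⟨0, by norm_num, by subst h; nlinarith [sq_nonneg u]⟩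
    · exact ⟨u / r, by rw [div_pow, div_le_one (by positivity)]; exact hu, by field_simp⟩
  exact (Reps_pos hl hε hw).le

/-- The inequality along a chord of length `r` with end cosines `c` and `d`, at scale `l`. -/
theorem chord_ineq {l ε r c d : ℝ} (hl : 0 < l) (hε : 0 < ε) (hr : 0 ≤ r) (hc : 0 < c) (hd : 0 < d)
    (hc1 : c ≤ 1) (hd1 : d ≤ 1) :
    l * r ≤ alpha * (l * r) ^ 5 *
        (Reps l ε (r ^ 2) (r * c) + Reps l ε (r ^ 2) (r * d)) / (2 * (c * d)) +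
      gFun c + gFun d + l * Real.sqrt ε / 2 := by
  have h1 := Reps_ge (r := r) hl hε (show c ^ 2 ≤ 1 by nlinarith)
  have h2 := Reps_ge (r := r) hl hε (show d ^ 2 ≤ 1 by nlinarith)
  have hs : 0 < r ^ 2 + ε := by positivity
  set Y := gFun c + gFun d with hY
  have hY0 : 0 ≤ Y := by simp only [hY, gFun]; positivity
  set X := alpha * (l * r) ^ 5 *
      (Reps l ε (r ^ 2) (r * c) + Reps l ε (r ^ 2) (r * d)) / (2 * (c * d)) with hX
  set X0 := (17 * (l * r) ^ 5 + 10 * (3 + c ^ 2 + d ^ 2) * (l * r) ^ 3 -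
      25 * (c + d) * (l * r) ^ 4) / (360 * (c * d)) with hX0
  set m := r ^ 2 / (r ^ 2 + ε) with hm
  have hs0 := star (l * r) c d (by positivity) hc.le hd.le hc1 hd1
  have hstar : l * r ≤ X0 + Y := by
    have e : X0 + Y - l * r = (17 * (l * r) ^ 5 + 10 * (3 + c ^ 2 + d ^ 2) * (l * r) ^ 3 -
        25 * (c + d) * (l * r) ^ 4 +
        c * d * (240 * (c + d) + 48 * (c ^ 3 + d ^ 3) - 360 * (l * r))) / (360 * (c * d)) := by
      simp only [hX0, hY, gFun]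
      field_simp
      ring
    have : 0 ≤ X0 + Y - l * r := by rw [e]; positivity
    linarith
  have hX' : m * X0 ≤ X := by
    have hk : 0 ≤ alpha * (l * r) ^ 5 / (2 * (c * d)) := by
      unfold alpha; positivity
    refine le_trans (le_of_eq ?_) (le_trans (mul_le_mul_of_nonneg_left (add_le_add h1 h2) hk)
      (le_of_eq ?_))
    · simp only [hm, hX0, alpha]
      field_simp
      ring
    · simp only [hX]; ring
  have hm1 : m ≤ 1 := by rw [hm, div_le_one hs]; linarith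
  have hm0 : 0 ≤ m := by rw [hm]; positivity
  have hrem : l * r - m * (l * r) ≤ l * Real.sqrt ε / 2 := by
    have e : l * r - m * (l * r) = l * (r * ε / (r ^ 2 + ε)) := by rw [hm]; field_simp; ring
    rw [e, mul_div_assoc l]
    refine mul_le_mul_of_nonneg_left ?_ hl.le
    rw [div_le_div_iff₀ hs two_pos]
    have h3 := mul_nonneg (Real.sqrt_nonneg ε) (sq_nonneg (r - Real.sqrt ε))
    have h4 : Real.sqrt ε * (r - Real.sqrt ε) ^ 2 =
        Real.sqrt ε * r ^ 2 - 2 * r * (Real.sqrt ε * Real.sqrt ε) +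
          Real.sqrt ε * (Real.sqrt ε * Real.sqrt ε) := by ring
    rw [Real.mul_self_sqrt hε.le] at h4
    linarith [mul_add (Real.sqrt ε) (r ^ 2) ε]
  nlinarith [mul_le_mul_of_nonneg_left hstar hm0, mul_nonneg (sub_nonneg.2 hm1) hY0]

end Vale.Agent.P219.Six
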