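import Vale.Agent.P219.Six.Geo.Jac

/-!
# Geometry of the normal coordinates for the sharp six-dimensional inequality
-/

open MeasureTheory Set Filter Topology
open scoped ENNReal ContDiff RealInnerProductSpace

namespace Vale.Agent.P219.Six

open Vale.Agent.P219 Vale.Agent.P219.Univ

noncomputable section

variable {n : ℕ} {g : MetricField n} {Exp Log : Space n → Space n → Space n}
  (hg : IsMetric g) (hc : JointCharts g Exp Log)

theorem vel_eq (x v : Space n) : vel Exp x v = Geo.Y (Exp x) v v := rfl

include hg hc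

theorem speed_vel (x v : Space n) (t : ℝ) :
    g (Exp x (t • v)) (vel Exp x v t) (vel Exp x v t) = ‖v‖ ^ 2 := by
  rw [vel_eq, (hc.chart x).speed hg, real_inner_self_eq_norm_sq]

theorem dist_symm (x y : Space n) : ‖Log x y‖ = ‖Log y x‖ := by
  have h := hc.psi_symm hg x y
  simp only [psi] at h
  exact (pow_left_inj₀ (norm_nonneg _) (norm_nonneg _) two_ne_zero).1 (by linarith)

/-- Reversal of a geodesic. -/
theorem reverse (x v : Space n) (hv : ‖v‖ = 1) {l : ℝ} (hl : 0 < l) :
    ∃ w : Space n, ‖w‖ = 1 ∧ w = l⁻¹ • Log (Exp x (l • v)) x ∧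
      (∀ s : ℝ, Exp (Exp x (l • v)) (s • w) = Exp x ((l - s) • v)) ∧
      ∀ s : ℝ, vel Exp (Exp x (l • v)) w s = -vel Exp x v (l - s) := by
  set y := Exp x (l • v)
  set w := l⁻¹ • Log y x
  have hlog : Log x y = l • v := hc.left x _
  have hpos : ∀ s : ℝ, Exp y (s • w) = Exp x ((l - s) • v) := fun s => by
    rw [smul_smul, hc.exp_reverse hg x y, hlog, smul_smul]
    congr 2
    field_simp
  refine ⟨w, ?_, rfl, hpos, fun s => ?_⟩
  · rw [norm_smul, ← dist_symm hg hc x y, hlog, norm_smul, hv, norm_inv, mul_one]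
    exact inv_mul_cancel₀ (norm_ne_zero_iff.2 hl.ne')
  · have h1 : HasDerivAt (fun s : ℝ => Exp y (s • w)) (vel Exp y w s) s :=
      (hc.chart y).deriv_ray w s
    have h2 : HasDerivAt (fun s : ℝ => Exp x ((l - s) • v)) (-vel Exp x v (l - s)) s :=
      (((hc.chart x).deriv_ray v (l - s)).scomp s ((hasDerivAt_id s).const_sub l)).congr_deriv
        (by simp [vel, Geo.Y])
    rw [show (fun s : ℝ => Exp y (s • w)) = fun s : ℝ => Exp x ((l - s) • v) from funext hpos] at h1
    exact h1.unique h2

theorem jac_pos (hs : SecBound g 0) (x u : Space n) : 0 < jac g Exp x u := hc.jac_pos hg hs x u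

theorem jac_ge_one (hs : SecBound g 0) (x u : Space n) : 1 ≤ jac g Exp x u :=
  hc.one_le_jac hg hs x u

theorem jac_symm (x y : Space n) : jac g Exp x (Log x y) = jac g Exp y (Log y x) :=
  hc.jac_symm hg x y

theorem continuous_jac : Continuous fun p : Space n × Space n => jac g Exp p.1 p.2 :=
  hc.continuous_jac hg

omit hg in
theorem contDiff_psi : ContDiff ℝ ∞ (fun p : Space n × Space n => psi Log p.1 p.2) :=
  hc.smooth_psi

theorem dpsi_ray (x v : Space n) (t : ℝ) (W : Space n) :
    fderiv ℝ (psi Log x) (Exp x (t • v)) W = t * g (Exp x (t • v)) (vel Exp x v t) W := by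
  rw [hc.psi_deriv hg, hc.left, map_smul, map_smul, smul_apply, smul_eq_mul]
  rfl

theorem grad_psi_sq (a x : Space n) :
    g x (gGrad g (psi Log a) x) (gGrad g (psi Log a) x) = 2 * psi Log a x :=
  hc.grad_psi_sq hg a x

theorem hess_psi (hs : SecBound g 0) (a x v : Space n) :
    g x v v ≤ gHess g (psi Log a) x v v :=
  hc.hess_psi hg hs a x v

/-- Strong convexity of `psi o` on the geodesic from `x` towards `a`. -/
theorem psi_convex (hs : SecBound g 0) (o a x : Space n) :
    psi Log o x + psi Log a x ≤
      psi Log o a + fderiv ℝ (psi Log o) x (gGrad g (psi Log a) x) := by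
  set v := Log x a
  set f : ℝ → ℝ := fun t => psi Log o (Exp x (t • v)) - t ^ 2 * psi Log a x
  set f' : ℝ → ℝ := fun t =>
    fderiv ℝ (psi Log o) (Exp x (t • v)) (vel Exp x v t) - 2 * t * psi Log a x
  have hp := hc.smooth_psi_at o
  have hd : ∀ t, HasDerivAt f (f' t) t := fun t => by
    have h1 : HasDerivAt (fun s : ℝ => psi Log o (Exp x (s • v)))
        (fderiv ℝ (psi Log o) (Exp x (t • v)) (vel Exp x v t)) t :=
      ((hp.differentiable (by simp)) _).hasFDerivAt.comp_hasDerivAt t ((hc.chart x).deriv_ray v t)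
    refine (h1.sub ((hasDerivAt_pow 2 t).mul_const (psi Log a x))).congr_deriv ?_
    simp [f']
  have hd' : ∀ t, HasDerivAt f' (gHess g (psi Log o) (Exp x (t • v)) (vel Exp x v t) (vel Exp x v t) -
      2 * psi Log a x) t := fun t => by
    have h1 : HasDerivAt (fun s : ℝ => fderiv ℝ (psi Log o) (Exp x (s • v)))
        (fderiv ℝ (fderiv ℝ (psi Log o)) (Exp x (t • v)) (vel Exp x v t)) t :=
      (((hp.fderiv_right (m := ∞) le_rfl).differentiable (by simp)) _).hasFDerivAt.comp_hasDerivAt t
        ((hc.chart x).deriv_ray v t)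
    refine ((h1.clm_apply ((hc.isGeo_exp x v t).2)).sub
      (((hasDerivAt_id t).const_mul 2).mul_const (psi Log a x))).congr_deriv ?_
    simp only [gHess, vel_eq, map_neg, mul_one]
    ring
  have hnn : ∀ t, 0 ≤ gHess g (psi Log o) (Exp x (t • v)) (vel Exp x v t) (vel Exp x v t) -
      2 * psi Log a x := fun t => by
    have h1 := hess_psi hg hc hs o (Exp x (t • v)) (vel Exp x v t)
    rw [speed_vel hg hc, ← dist_symm hg hc a x] at h1
    simp only [psi] at h1 ⊢
    linarith
  have hmono : Monotone f' := monotone_of_hasDerivAt_nonneg hd' hnn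
  have h01 : f' 0 * (1 - 0) ≤ f 1 - f 0 :=
    (convex_Icc (0 : ℝ) 1).mul_sub_le_image_sub_of_le_deriv
      (fun t _ => (hd t).continuousAt.continuousWithinAt)
      (fun t _ => (hd t).differentiableAt.differentiableWithinAt)
      (fun t ht => by rw [(hd t).deriv]; exact hmono (by rw [interior_Icc] at ht; exact ht.1.le))
      0 (left_mem_Icc.2 zero_le_one) 1 (right_mem_Icc.2 zero_le_one) zero_le_one
  have hvel : vel Exp x v 0 = -gGrad g (psi Log a) x := by
    rw [hc.grad_psi hg, vel, zero_smul]
    exact (hc.log_vel hg a x).1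
  have e0 : f 0 = psi Log o x := by simp [f, hc.zero]
  have e1 : f 1 = psi Log o a - psi Log a x := by simp [f, v, hc.right]
  have e2 : f' 0 = -fderiv ℝ (psi Log o) x (gGrad g (psi Log a) x) := by simp [f', hvel, hc.zero]
  rw [e0, e1, e2] at h01
  linarith

omit hg in
/-- Integration in geodesic polar coordinates. -/
theorem polar [NeZero n] (x : Space n) {f : Space n → ℝ≥0∞} (hf : Measurable f) :
    ∫⁻ y, f y * ENNReal.ofReal (dens g y) =
      ∫⁻ v, (∫⁻ t in Ioi (0 : ℝ), f (Exp x (t • (v : Space n))) *
        ENNReal.ofReal (t ^ (n - 1) * jac g Exp x (t • (v : Space n)))) ∂dirs n := by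
  have hE : ∀ u ∈ (univ : Set (Space n)),
      HasFDerivWithinAt (Exp x) (fderiv ℝ (Exp x) u) univ u := fun u _ =>
    ((hc.chart x).hasFDerivAt u).hasFDerivWithinAt
  have himg : Exp x '' univ = univ := eq_univ_of_forall fun y => ⟨Log x y, trivial, hc.right x y⟩
  have hinj : InjOn (Exp x) univ := fun u _ u' _ h => by
    rw [← hc.left x u, h, hc.left]
  have h1 := lintegral_image_eq_lintegral_abs_det_fderiv_mul (volume : Measure (Space n))
    MeasurableSet.univ hE hinj (fun y => f y * ENNReal.ofReal (dens g y))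
  rw [himg, setLIntegral_univ, setLIntegral_univ] at h1
  rw [h1]
  set F : Space n → ℝ≥0∞ := fun u => f (Exp x u) * ENNReal.ofReal (jac g Exp x u)
  have hF : ∀ u, ENNReal.ofReal |(fderiv ℝ (Exp x) u).det| *
      (f (Exp x u) * ENNReal.ofReal (dens g (Exp x u))) = F u := fun u => by
    simp only [F, jac]
    rw [mul_comm (dens g (Exp x u)), ENNReal.ofReal_mul (abs_nonneg _)]
    ring
  simp only [hF]
  set μ : Measure (Space n) := volume
  have hmp := μ.measurePreserving_homeomorphUnitSphereProd
  set G : Metric.sphere (0 : Space n) 1 × Ioi (0 : ℝ) → ℝ≥0∞ :=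
    fun z => F ((z.2 : ℝ) • (z.1 : Space n))
  have hG : ∀ u, G (homeomorphUnitSphereProd (Space n) u) = F u := fun u => by
    have hu : (u : Space n) ≠ 0 := u.2
    simp [G, smul_smul, hu]
  have hdet : Measurable fun u => |(fderiv ℝ (Exp x) u).det| :=
    ((ContinuousLinearMap.continuous_det.comp (hc.chart x).contDiff_D.continuous).abs).measurable
  have hdens : Measurable fun u => ENNReal.ofReal (jac g Exp x u) := by
    refine ENNReal.measurable_ofReal.comp ?_
    have hd : Measurable fun u => dens g (Exp x u) :=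
      (hc.continuous_dens.comp (hc.smooth_exp_at x).continuous).measurable
    exact hd.mul hdet
  have hFm : Measurable F :=
    (hf.comp (hc.smooth_exp_at x).continuous.measurable).mul hdens
  have hGm : Measurable G := hFm.comp
    ((measurable_subtype_coe.comp measurable_snd).smul (measurable_subtype_coe.comp measurable_fst))
  calc ∫⁻ u, F u = ∫⁻ u : ({0}ᶜ : Set (Space n)), F u ∂(μ.comap (↑)) := by
        rw [lintegral_subtype_comap (measurableSet_singleton _).compl F, restrict_compl_singleton]
    _ = ∫⁻ z, G z ∂(μ.toSphere.prod (Measure.volumeIoiPow (Module.finrank ℝ (Space n) - 1))) := by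
        rw [← hmp.lintegral_comp hGm]
        exact lintegral_congr fun u => (hG u).symm
    _ = _ := by
        rw [lintegral_prod _ hGm.aemeasurable, finrank_euclideanSpace_fin]
        refine lintegral_congr fun v => ?_
        rw [Measure.volumeIoiPow, lintegral_withDensity_eq_lintegral_mul _
          ((measurable_subtype_coe.pow_const _).ennreal_ofReal) (by fun_prop)]
        simp only [Pi.mul_apply, G]
        rw [lintegral_subtype_comap measurableSet_Ioi (fun a : ℝ =>
          ENNReal.ofReal (a ^ (n - 1)) * F (a • (v : Space n)))]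
        refine setLIntegral_congr_fun measurableSet_Ioi fun a ha => ?_
        simp only [F]
        rw [ENNReal.ofReal_mul (pow_nonneg (le_of_lt ha) _)]
        ring

end

end Vale.Agent.P219.Six
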