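import Mathlib
import Vale.Agent.P219.Six.Surf.Basic

/-!
# The surface functional of a regular window of levels

No surface measure is used: every property of `area` follows from the divergence theorem for
compactly supported fields and Fubini's theorem.
-/

open MeasureTheory Filter Topology Set Metric
open scoped ENNReal ContDiff

namespace Vale.Agent.P219.Six

open Vale.Agent.P219 Vale.Agent.P219.Univ Vale.Agent.P219.Six.Surf

noncomputable section

variable {n : ℕ} {g : MetricField n} {φ : Space n → ℝ} {η τ : ℝ}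

/-- The open set where level sets are regular. -/
def regSet (φ : Space n → ℝ) : Set (Space n) := {x | fderiv ℝ φ x ≠ 0}

theorem isOpen_regSet (hφ : ContDiff ℝ 2 φ) : IsOpen (regSet φ) :=
  isOpen_ne_fun (hφ.continuous_fderiv (by norm_num)) continuous_const

theorem contDiffAt_reg (hφ : ContDiff ℝ 2 φ) {h : Space n → ℝ}
    (hh : ContDiffOn ℝ 1 h (regSet φ)) (x : Space n) (hx : fderiv ℝ φ x ≠ 0) :
    ContDiffAt ℝ 1 h x :=
  hh.contDiffAt ((isOpen_regSet hφ).mem_nhds hx)

theorem contDiff_cutN (hg : IsMetric g) (hd : Defining φ) (hw : RegWindow φ η) :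
    ContDiff ℝ 1 (cutN g φ η) ∧ HasCompactSupport (cutN g φ η) := by
  have h1 := smul_cutN_contDiff hg hd.smooth hw (h := fun _ => (1 : ℝ))
    fun _ _ => contDiffAt_const
  have h2 := smul_cutN_compact (g := g) hd hw fun _ => (1 : ℝ)
  simp only [one_smul] at h1 h2
  exact ⟨h1, h2⟩

theorem contDiffOn_unitN (hg : IsMetric g) (hd : Defining φ) :
    ContDiffOn ℝ 1 (unitN g φ) (regSet φ) :=
  fun _ hx => (unitN_contDiffAt hg hd.smooth hx).contDiffWithinAt

theorem isBounded_sub (hd : Defining φ) (hτ : τ < 1) : Bornology.IsBounded (sub φ τ) := by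
  obtain ⟨R, hR⟩ := sub_subset_ball hd hτ.le
  exact isBounded_closedBall.subset hR

theorem lt_one_of_window (hw : RegWindow φ η) (hτ : |τ| < η / 2) : τ < 1 := by
  linarith [le_abs_self τ, hw.1, hw.2.1]

/-- The field whose flux defines `area`. -/
theorem area_eq (hg : IsMetric g) (φ : Space n → ℝ) (η τ : ℝ) (h : Space n → ℝ) :
    area g φ η τ h = ∫ x in sub φ τ, divg (fun y => dens g y • (h y • cutN g φ η y)) x := by
  rw [area, gInt_gDiv hg]

theorem field_contDiff (hg : IsMetric g) (hd : Defining φ) (hw : RegWindow φ η)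
    {h : Space n → ℝ} (hh : ContDiffOn ℝ 1 h (regSet φ)) :
    ContDiff ℝ 1 fun y => dens g y • (h y • cutN g φ η y) :=
  contDiff_weighted hg (smul_cutN_contDiff hg hd.smooth hw (contDiffAt_reg hd.smooth hh))

theorem field_compact (hd : Defining φ) (hw : RegWindow φ η) (h : Space n → ℝ) :
    HasCompactSupport fun y => dens g y • (h y • cutN g φ η y) :=
  hasCompactSupport_weighted (smul_cutN_compact hd hw h)

theorem field_flux (hg : IsMetric g) (h : Space n → ℝ) (x : Space n) :
    fderiv ℝ φ x (dens g x • (h x • cutN g φ η x)) =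
      dens g x * h x * bump (φ x / η) * gradLen g φ x := by
  simp only [cutN, map_smul, smul_eq_mul, fderiv_unitN hg]
  ring

theorem area_add (hg : IsMetric g) (hd : Defining φ) (hw : RegWindow φ η) (hτ : τ ≤ 1)
    {h h' : Space n → ℝ} (hh : ContDiffOn ℝ 1 h (regSet φ))
    (hh' : ContDiffOn ℝ 1 h' (regSet φ)) :
    area g φ η τ (fun x => h x + h' x) = area g φ η τ h + area g φ η τ h' := by
  simp only [area_eq hg]
  rw [← integral_add (integrableOn_sub hd hτ (continuous_divg (field_contDiff hg hd hw hh)))
    (integrableOn_sub hd hτ (continuous_divg (field_contDiff hg hd hw hh')))]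
  refine integral_congr_ae (ae_of_all _ fun x => ?_)
  have := divg_sub_smul (field_contDiff hg hd hw hh) (field_contDiff hg hd hw hh') 1 1 x
  simp only [one_smul, one_mul] at this
  simp only [add_smul, smul_add, this]

theorem area_smul (hg : IsMetric g) (hd : Defining φ) (hw : RegWindow φ η)
    {h : Space n → ℝ} (hh : ContDiffOn ℝ 1 h (regSet φ)) (c : ℝ) :
    area g φ η τ (fun x => c * h x) = c * area g φ η τ h := by
  simp only [area_eq hg, ← integral_const_mul]
  refine integral_congr_ae (ae_of_all _ fun x => ?_)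
  have := divg_sub_smul (field_contDiff hg hd hw hh) (field_contDiff hg hd hw hh) c 0 x
  simp only [zero_smul, add_zero, zero_mul] at this
  simp only [mul_smul, smul_comm (dens g _) c, this]

/-- A field tangent to the level sets near the level `τ` has no flux through it. -/
theorem tangential_zero (hd : Defining φ) (hτ : τ ≤ 1) {Z : Space n → Space n}
    (hZ : ContDiff ℝ 1 Z) {δ : ℝ} (hδ : 0 < δ)
    (h0 : ∀ x, |φ x - τ| ≤ δ → fderiv ℝ φ x (Z x) = 0) :
    ∫ x in sub φ τ, divg Z x = 0 := by
  set θ : ℕ → ℝ → ℝ := fun k s => Real.smoothTransition (((k : ℝ) + 1) * (τ - s)) with hθ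
  have hθd : ∀ k, ContDiff ℝ 1 (θ k) := fun k =>
    Real.smoothTransition.contDiff.comp (by fun_prop)
  have hθ0 : ∀ k s, τ ≤ s → θ k s = 0 := fun k s hs =>
    Real.smoothTransition.zero_of_nonpos (mul_nonpos_of_nonneg_of_nonpos (by positivity) (by linarith))
  obtain ⟨K, hK⟩ := exists_nat_one_div_lt hδ
  have hz : ∀ k, K ≤ k → ∫ x, θ k (φ x) * divg Z x = 0 := by
    intro k hk
    rw [parts hd (hθd k) (fun s hs => hθ0 k s (hτ.trans hs)) hZ, neg_eq_zero]
    refine integral_eq_zero_of_ae (ae_of_all _ fun x => ?_)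
    simp only [Pi.zero_apply]
    rcases le_or_gt |φ x - τ| δ with h | h
    · rw [h0 x h, mul_zero]
    · rcases lt_abs.1 h with h' | h'
      · have : θ k =ᶠ[𝓝 (φ x)] fun _ => 0 := by
          filter_upwards [isOpen_Ioi.mem_nhds (show τ < φ x by linarith)] with s hs
          exact hθ0 k s (le_of_lt hs)
        rw [this.deriv_eq]
        simp
      · have : θ k =ᶠ[𝓝 (φ x)] fun _ => 1 := by
          filter_upwards [isOpen_Iio.mem_nhds (show φ x < τ - δ by linarith)] with s hs
          refine Real.smoothTransition.one_of_one_le ?_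
          have hs' : s < τ - δ := hs
          have h2 : 1 / ((k : ℝ) + 1) ≤ τ - s :=
            ((Nat.one_div_le_one_div hk).trans hK.le).trans (by linarith)
          rwa [div_le_iff₀' (by positivity)] at h2
        rw [this.deriv_eq]
        simp
  have hDc : Continuous (divg Z) := continuous_divg hZ
  have hlim : Tendsto (fun k => ∫ x, θ k (φ x) * divg Z x) atTop
      (𝓝 (∫ x, (sub φ τ).indicator (divg Z) x)) := by
    refine tendsto_integral_of_dominated_convergence
      ((sub φ τ).indicator fun x => ‖divg Z x‖) (fun k => ?_)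
      ((integrable_indicator_iff (measurableSet_sub hd.smooth.continuous τ)).2
        (integrableOn_sub hd hτ hDc.norm)) (fun k => ae_of_all _ fun x => ?_)
      (ae_of_all _ fun x => ?_)
    · exact (((hθd k).continuous.comp hd.smooth.continuous).mul hDc).aestronglyMeasurable
    · rcases lt_or_ge (φ x) τ with h | h
      · rw [indicator_of_mem (show x ∈ sub φ τ from h), norm_mul]
        refine mul_le_of_le_one_left (norm_nonneg _) ?_
        rw [Real.norm_of_nonneg (Real.smoothTransition.nonneg _)]
        exact Real.smoothTransition.le_one _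
      · rw [hθ0 k _ h, indicator_of_notMem (show x ∉ sub φ τ from not_lt.2 h)]
        simp
    · rcases lt_or_ge (φ x) τ with h | h
      · rw [indicator_of_mem (show x ∈ sub φ τ from h)]
        obtain ⟨N, hN⟩ := exists_nat_gt (1 / (τ - φ x))
        refine tendsto_atTop_of_eventually_const (i₀ := N) fun k hk => ?_
        rw [hθ]
        simp only
        rw [Real.smoothTransition.one_of_one_le, one_mul]
        have hk' : (N : ℝ) ≤ k := by exact_mod_cast hk
        rw [← div_le_iff₀ (by linarith : (0 : ℝ) < τ - φ x)]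
        linarith
      · rw [indicator_of_notMem (show x ∉ sub φ τ from not_lt.2 h)]
        simp [hθ0 _ _ h]
  rw [← integral_indicator (measurableSet_sub hd.smooth.continuous τ)]
  refine tendsto_nhds_unique hlim (tendsto_atTop_of_eventually_const (i₀ := K) fun k hk => hz k hk)

/-- Fields with the same normal component near the level have the same flux. -/
theorem flux_congr (hg : IsMetric g) (hd : Defining φ) (hτ : τ ≤ 1)
    {A B : Space n → Space n} (hA : ContDiff ℝ 1 A) (hB : ContDiff ℝ 1 B) {δ : ℝ} (hδ : 0 < δ)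
    (hAB : ∀ x, |φ x - τ| ≤ δ → fderiv ℝ φ x (A x) = fderiv ℝ φ x (B x)) :
    gInt g (sub φ τ) (gDiv g A) = gInt g (sub φ τ) (gDiv g B) := by
  have hwA := contDiff_weighted hg hA
  have hwB := contDiff_weighted hg hB
  have h0 : ∫ x in sub φ τ, divg (fun y => (1 : ℝ) • (dens g y • A y) +
      (-1 : ℝ) • (dens g y • B y)) x = 0 := by
    refine tangential_zero hd hτ ((hwA.const_smul (1 : ℝ)).add (hwB.const_smul (-1 : ℝ))) hδ
      fun x hx => ?_
    simp only [map_add, map_smul, hAB x hx, smul_eq_mul]
    ring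
  simp only [divg_sub_smul hwA hwB, one_mul, neg_one_mul, ← sub_eq_add_neg] at h0
  rw [integral_sub (integrableOn_sub hd hτ (continuous_divg hwA))
    (integrableOn_sub hd hτ (continuous_divg hwB)), sub_eq_zero] at h0
  rw [gInt_gDiv hg, gInt_gDiv hg, h0]

theorem contDiffOn_normalPart (hg : IsMetric g) (hd : Defining φ) {Y : Space n → Space n}
    (hY : ContDiff ℝ 1 Y) :
    ContDiffOn ℝ 1 (fun x => g x (Y x) (unitN g φ x)) (regSet φ) :=
  ((hg.smooth.of_le (by simp)).contDiffOn.clm_apply hY.contDiffOn).clm_apply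
    (contDiffOn_unitN hg hd)

theorem flux (hg : IsMetric g) (hd : Defining φ) (hw : RegWindow φ η) (hτ : |τ| < η / 2)
    {Y : Space n → Space n} (hY : ContDiff ℝ 1 Y) :
    gInt g (sub φ τ) (gDiv g Y) = area g φ η τ (fun x => g x (Y x) (unitN g φ x)) := by
  refine flux_congr hg hd (lt_one_of_window hw hτ).le hY
    (smul_cutN_contDiff hg hd.smooth hw (contDiffAt_reg hd.smooth (contDiffOn_normalPart hg hd hY)))
    (sub_pos.2 hτ) fun x hx => ?_
  have hx' : |φ x| ≤ η / 2 := by
    have := abs_sub_abs_le_abs_sub (φ x) τ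
    linarith
  simp only [cutN, bump_window hw hx', one_smul, map_smul, smul_eq_mul, fderiv_unitN hg]
  exact (g_unitN hg x (Y x)).symm

theorem coarea (hg : IsMetric g) (hd : Defining φ) (hw : RegWindow φ η) {h : Space n → ℝ}
    (hh : ContDiffOn ℝ 1 h (regSet φ)) {k : ℝ → ℝ} (hk : Continuous k)
    (hks : ∀ s, k s ≠ 0 → |s| < η / 2) :
    ∫ s, k s * area g φ η s h = ∫ x, k (φ x) * h x * gradLen g φ x * dens g x := by
  set Z : Space n → Space n := fun y => dens g y • (h y • cutN g φ η y) with hZdef
  have hZ : ContDiff ℝ 1 Z := field_contDiff hg hd hw hh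
  have hDc : Continuous (divg Z) := continuous_divg hZ
  set Θ : ℝ → ℝ := fun s => ∫ t in s..η, k t with hΘdef
  have hΘd : ∀ s, HasDerivAt Θ (-k s) s := fun s =>
    intervalIntegral.integral_hasDerivAt_left (hk.intervalIntegrable _ _)
      hk.stronglyMeasurable.stronglyMeasurableAtFilter hk.continuousAt
  have hΘc : ContDiff ℝ 1 Θ := by
    refine contDiff_one_iff_deriv.2 ⟨fun s => (hΘd s).differentiableAt, ?_⟩
    rw [funext fun s => (hΘd s).deriv]
    exact hk.neg
  have hk0 : ∀ t, η / 2 ≤ t → k t = 0 := fun t ht => by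
    by_contra hne
    linarith [hks t hne, le_abs_self t]
  have hΘI : ∀ s, Θ s = ∫ t in Ioi s, k t := by
    intro s
    rcases le_total s η with hs | hs
    · rw [hΘdef]
      simp only
      rw [intervalIntegral.integral_of_le hs]
      refine setIntegral_eq_of_subset_of_forall_sdiff_eq_zero measurableSet_Ioi
        (Ioc_subset_Ioi_self) (fun t ht => hk0 t ?_) |>.symm
      have : η < t := not_le.1 fun hc => ht.2 ⟨ht.1, hc⟩
      linarith [hw.1]
    · rw [setIntegral_eq_zero_of_forall_eq_zero (t := Ioi s) fun t (ht : t ∈ Ioi s) =>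
        hk0 t (by linarith [hw.1, mem_Ioi.1 ht])]
      rw [hΘdef]
      simp only
      rw [intervalIntegral.integral_of_ge hs, neg_eq_zero]
      exact setIntegral_eq_zero_of_forall_eq_zero fun t ht => hk0 t (by linarith [ht.1, hw.1])
  have h1 : ∀ s, 1 ≤ s → Θ s = 0 := fun s hs => by
    rw [hΘI]
    exact setIntegral_eq_zero_of_forall_eq_zero fun t (ht : s < t) =>
      hk0 t (by linarith [hw.1, hw.2.1])
  have hkc : HasCompactSupport k := HasCompactSupport.intro (isCompact_Icc (a := -η) (b := η))
    fun t ht => by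
      by_contra hne
      have := abs_lt.1 (hks t hne)
      exact ht ⟨by linarith [hw.1], by linarith [hw.1]⟩
  have hki : Integrable k := hk.integrable_of_hasCompactSupport hkc
  have hDi : Integrable (divg Z) :=
    integrable_divg hZ (field_compact hd hw h)
  set F : ℝ × Space n → ℝ := {p : ℝ × Space n | φ p.2 < p.1}.indicator
    fun p => k p.1 * divg Z p.2 with hFdef
  have hFi : Integrable F ((volume : Measure ℝ).prod (volume : Measure (Space n))) :=
    (hki.mul_prod hDi).indicator
      (isOpen_lt (hd.smooth.continuous.comp continuous_snd) continuous_fst).measurableSet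
  calc ∫ s, k s * area g φ η s h = ∫ s, ∫ x, F (s, x) := by
        refine integral_congr_ae (ae_of_all _ fun s => ?_)
        simp only [area_eq hg, ← integral_const_mul]
        rw [← integral_indicator (measurableSet_sub hd.smooth.continuous s)]
        rfl
    _ = ∫ x, ∫ s, F (s, x) := integral_integral_swap hFi
    _ = ∫ x, Θ (φ x) * divg Z x := by
        refine integral_congr_ae (ae_of_all _ fun x => ?_)
        simp only [hΘI, ← integral_mul_const]
        rw [← integral_indicator measurableSet_Ioi]
        rfl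
    _ = -∫ x, deriv Θ (φ x) * fderiv ℝ φ x (Z x) := parts hd hΘc h1 hZ
    _ = ∫ x, k (φ x) * h x * gradLen g φ x * dens g x := by
        rw [← integral_neg]
        refine integral_congr_ae (ae_of_all _ fun x => ?_)
        simp only [(hΘd _).deriv, hZdef, field_flux hg]
        rcases eq_or_ne (k (φ x)) 0 with h0 | h0
        · simp [h0]
        · rw [bump_window hw (hks _ h0).le]
          ring

/-- A continuous tent around `τ`. -/
def tent (τ r : ℝ) (s : ℝ) : ℝ := max 0 (1 - |s - τ| / r)

theorem tent_props (τ : ℝ) {r : ℝ} (hr : 0 < r) :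
    Continuous (tent τ r) ∧ (∀ s, 0 ≤ tent τ r s ∧ tent τ r s ≤ 1) ∧
      (∀ s, tent τ r s ≠ 0 → |s - τ| < r) ∧ tent τ r τ = 1 := by
  refine ⟨by unfold tent; fun_prop, fun s => ⟨le_max_left _ _, max_le zero_le_one ?_⟩,
    fun s hs => ?_, by simp [tent]⟩
  · have := div_nonneg (abs_nonneg (s - τ)) hr.le
    linarith
  · by_contra hc
    refine hs (max_eq_left ?_)
    rw [sub_nonpos, one_le_div hr]
    exact not_lt.1 hc

theorem abs_area_le (hg : IsMetric g) (hd : Defining φ) (hw : RegWindow φ η)
    {h : Space n → ℝ} (hh : ContDiffOn ℝ 1 h (regSet φ)) (s : ℝ) :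
    |area g φ η s h| ≤ ∫ x, |divg (fun y => dens g y • (h y • cutN g φ η y)) x| := by
  rw [area_eq hg]
  have hi : Integrable fun x => |divg (fun y => dens g y • (h y • cutN g φ η y)) x| :=
    (integrable_divg (field_contDiff hg hd hw hh) (field_compact hd hw h)).abs
  exact (abs_integral_le_integral_abs).trans
    (setIntegral_le_integral hi (ae_of_all _ fun x => abs_nonneg _))

theorem level_null (hg : IsMetric g) (hd : Defining φ) (hw : RegWindow φ η) (hτ : |τ| < η / 2) :
    volume {x | φ x = τ} = 0 := by
  set r : ℕ → ℝ := fun k => (η / 2 - |τ|) / ((k : ℝ) + 1) with hrdef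
  have hr : ∀ k, 0 < r k := fun k => div_pos (sub_pos.2 hτ) (by positivity)
  have hrle : ∀ k, r k ≤ η / 2 - |τ| := fun k =>
    div_le_self (sub_pos.2 hτ).le (by simp)
  have hsup : ∀ k s, tent τ (r k) s ≠ 0 → |s| < η / 2 := fun k s hs => by
    have h1 := (tent_props τ (hr k)).2.2.1 s hs
    have h2 := abs_sub_abs_le_abs_sub s τ
    linarith [hrle k]
  have hc1 : ContDiffOn ℝ 1 (fun _ : Space n => (1 : ℝ)) (regSet φ) := contDiffOn_const
  have hG : Continuous fun x => gradLen g φ x * dens g x :=
    (gradLen_continuous hg hd.smooth).mul (contDiff_dens hg).continuous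
  set S : Set (Space n) := {x | φ x = τ} with hS
  have hSm : MeasurableSet S := (isClosed_eq hd.smooth.continuous continuous_const).measurableSet
  obtain ⟨R, hR⟩ := sub_subset_ball hd (le_refl (1 : ℝ))
  have hball : ∀ {x}, |φ x| < η / 2 → x ∈ closedBall (0 : Space n) R := fun {x} hx =>
    hR (show φ x < 1 by linarith [le_abs_self (φ x), hw.1, hw.2.1])
  set B : Space n → ℝ := (closedBall (0 : Space n) R).indicator
    fun x => ‖gradLen g φ x * dens g x‖ with hB
  have hBi : Integrable B :=
    (integrable_indicator_iff measurableSet_closedBall).2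
      (hG.norm.continuousOn.integrableOn_compact (isCompact_closedBall _ _))
  have hlim : Tendsto (fun k => ∫ x, tent τ (r k) (φ x) * 1 * gradLen g φ x * dens g x) atTop
      (𝓝 (∫ x, S.indicator (fun x => gradLen g φ x * dens g x) x)) := by
    refine tendsto_integral_of_dominated_convergence B (fun k => ?_) hBi
      (fun k => ae_of_all _ fun x => ?_) (ae_of_all _ fun x => ?_)
    · exact ((((tent_props τ (hr k)).1.comp hd.smooth.continuous).mul continuous_const).mul
        (gradLen_continuous hg hd.smooth) |>.mul (contDiff_dens hg).continuous).aestronglyMeasurable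
    · rcases eq_or_ne (tent τ (r k) (φ x)) 0 with h0 | h0
      · exact le_trans (le_of_eq (by simp [h0])) (indicator_nonneg (fun y _ => norm_nonneg _) x)
      · rw [hB, indicator_of_mem (hball (hsup k _ h0)), mul_one, mul_assoc, norm_mul]
        refine mul_le_of_le_one_left (norm_nonneg _) ?_
        rw [Real.norm_of_nonneg ((tent_props τ (hr k)).2.1 _).1]
        exact ((tent_props τ (hr k)).2.1 _).2
    · by_cases hx : φ x = τ
      · rw [indicator_of_mem (show x ∈ S from hx), hx]
        simp [(tent_props τ (hr _)).2.2.2]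
      · rw [indicator_of_notMem (show x ∉ S from hx)]
        have hr0 : Tendsto r atTop (𝓝 0) := by
          have := tendsto_one_div_add_atTop_nhds_zero_nat.const_mul (η / 2 - |τ|)
          simpa [hrdef, div_eq_mul_inv] using this
        refine tendsto_const_nhds.congr' ?_
        filter_upwards [hr0.eventually (gt_mem_nhds (abs_pos.2 (sub_ne_zero.2 hx)))] with k hk
        have : tent τ (r k) (φ x) = 0 := by
          by_contra hne
          exact lt_irrefl _ (((tent_props τ (hr k)).2.2.1 _ hne).trans hk)
        simp [this]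
  set M := ∫ x, |divg (fun y => dens g y • ((fun _ => (1 : ℝ)) y • cutN g φ η y)) x|
  have hsmall : ∀ k, |∫ x, tent τ (r k) (φ x) * 1 * gradLen g φ x * dens g x| ≤ M * (2 * r k) := by
    intro k
    rw [← coarea hg hd hw hc1 (tent_props τ (hr k)).1 (hsup k)]
    calc |∫ s, tent τ (r k) s * area g φ η s fun _ => 1|
        ≤ ∫ s, (Icc (τ - r k) (τ + r k)).indicator (fun _ => M) s := by
          rw [← Real.norm_eq_abs]
          refine norm_integral_le_of_norm_le ((integrable_indicator_iff measurableSet_Icc).2
            (continuous_const.integrableOn_Icc)) (ae_of_all _ fun s => ?_)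
          rcases eq_or_ne (tent τ (r k) s) 0 with h0 | h0
          · simp [h0]
            exact indicator_nonneg (fun y _ => integral_nonneg fun x => abs_nonneg _) _
          · have hh := abs_lt.1 ((tent_props τ (hr k)).2.2.1 s h0)
            rw [indicator_of_mem (show s ∈ Icc (τ - r k) (τ + r k) from
              ⟨by linarith, by linarith⟩), norm_mul, Real.norm_of_nonneg ((tent_props τ (hr k)).2.1 s).1]
            exact (mul_le_of_le_one_left (norm_nonneg _) ((tent_props τ (hr k)).2.1 s).2).trans
              (abs_area_le hg hd hw hc1 s)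
      _ = M * (2 * r k) := by
          rw [integral_indicator measurableSet_Icc, setIntegral_const, smul_eq_mul,
            Real.volume_real_Icc_of_le (by linarith [hr k])]
          ring
  have hzero : ∫ x, S.indicator (fun x => gradLen g φ x * dens g x) x = 0 := by
    refine tendsto_nhds_unique hlim (squeeze_zero_norm hsmall ?_)
    have := tendsto_one_div_add_atTop_nhds_zero_nat.const_mul (M * (2 * (η / 2 - |τ|)))
    rw [mul_zero] at this
    refine this.congr fun k => ?_
    simp only [hrdef]
    ring
  have hSi : IntegrableOn (fun x => gradLen g φ x * dens g x) S := by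
    refine (hG.continuousOn.integrableOn_compact (isCompact_closedBall 0 R)).mono_set fun x hx => ?_
    exact hball (by rw [show φ x = τ from hx]; exact hτ)
  rw [integral_indicator hSm, setIntegral_eq_zero_iff_of_nonneg_ae
    (ae_of_all _ fun x => mul_nonneg (gradLen_nonneg g φ x) (dens_pos hg x).le) hSi] at hzero
  have h2 : ∀ᵐ x ∂(volume : Measure (Space n)), x ∉ S := by
    filter_upwards [(ae_restrict_iff' hSm).1 hzero] with x hx hxS
    refine (mul_pos (gradLen_pos hg (fderiv_ne_window hw ?_)) (dens_pos hg x)).ne' (hx hxS)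
    rw [show φ x = τ from hxS]
    exact hτ.le
  exact measure_eq_zero_iff_ae_notMem.2 h2

theorem continuousAt_setIntegral_sub (hg : IsMetric g) (hd : Defining φ) (hw : RegWindow φ η)
    {F : Space n → ℝ} (hF : Continuous F) (hτ : |τ| < η / 2) :
    ContinuousAt (fun s => ∫ x in sub φ s, F x) τ := by
  have hm := measurableSet_sub hd.smooth.continuous
  have e : (fun s => ∫ x in sub φ s, F x) = fun s => ∫ x, (sub φ s).indicator F x :=
    funext fun s => (integral_indicator (hm s)).symm
  rw [e]
  refine continuousAt_of_dominated (bound := (sub φ 1).indicator fun x => ‖F x‖)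
    (Eventually.of_forall fun s => (hF.aestronglyMeasurable.indicator (hm s)))
    ?_ ((integrable_indicator_iff (hm 1)).2 (integrableOn_sub hd le_rfl hF.norm)) ?_
  · filter_upwards [isOpen_Iio.mem_nhds (lt_one_of_window hw hτ)] with s hs
    refine ae_of_all _ fun x => ?_
    rw [norm_indicator_eq_indicator_norm]
    exact indicator_le_indicator_of_subset (fun y (hy : φ y < s) => hy.trans hs)
      (fun y => norm_nonneg _) x
  · filter_upwards [measure_eq_zero_iff_ae_notMem.1 (level_null hg hd hw hτ)] with x hx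
    rcases lt_or_gt_of_ne hx with h | h
    · refine (continuousAt_const (y := F x)).congr ?_
      filter_upwards [isOpen_Ioi.mem_nhds h] with s hs
      exact (indicator_of_mem (show x ∈ sub φ s from hs) F).symm
    · refine (continuousAt_const (y := (0 : ℝ))).congr ?_
      filter_upwards [isOpen_Iio.mem_nhds h] with s hs
      exact (indicator_of_notMem (show x ∉ sub φ s from fun hc : φ x < s =>
        lt_asymm hc (mem_Iio.1 hs)) F).symm

theorem area_continuous (hg : IsMetric g) (hd : Defining φ) (hw : RegWindow φ η)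
    {h : Space n → ℝ} (hh : ContDiffOn ℝ 1 h (regSet φ)) :
    ContinuousOn (fun τ => area g φ η τ h) (Ioo (-(η / 2)) (η / 2)) := by
  intro s hs
  simp only [area_eq hg]
  exact (continuousAt_setIntegral_sub hg hd hw (continuous_divg (field_contDiff hg hd hw hh))
    (abs_lt.2 hs)).continuousWithinAt

theorem gVol_continuous (hg : IsMetric g) (hd : Defining φ) (hw : RegWindow φ η) :
    ContinuousOn (fun τ => Univ.gVol g (sub φ τ)) (Ioo (-(η / 2)) (η / 2)) := by
  intro s hs
  exact (continuousAt_setIntegral_sub hg hd hw (contDiff_dens hg).continuous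
    (abs_lt.2 hs)).continuousWithinAt

theorem area_nonneg_near (hg : IsMetric g) (hd : Defining φ) (hw : RegWindow φ η)
    (hτ : |τ| < η / 2) {h : Space n → ℝ} (hh : ContDiffOn ℝ 1 h (regSet φ)) {δ : ℝ} (hδ : 0 < δ)
    (hpos : ∀ x, |φ x - τ| ≤ δ → 0 ≤ h x) : 0 ≤ area g φ η τ h := by
  by_contra hneg
  have hτI : τ ∈ Ioo (-(η / 2)) (η / 2) := abs_lt.1 hτ
  have hca : ContinuousAt (fun s => area g φ η s h) τ :=
    (area_continuous hg hd hw hh).continuousAt (isOpen_Ioo.mem_nhds hτI)
  obtain ⟨ρ, hρ, hρn⟩ := Metric.eventually_nhds_iff.1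
    (hca.eventually (gt_mem_nhds (show area g φ η τ h < area g φ η τ h / 2 by linarith)))
  set r := min (min ρ δ) (η / 2 - |τ|) with hrdef
  have hr : 0 < r := lt_min (lt_min hρ hδ) (sub_pos.2 hτ)
  obtain ⟨htc, ht01, hts, ht1⟩ := tent_props τ hr
  have hsup : ∀ s, tent τ r s ≠ 0 → |s| < η / 2 := fun s hs => by
    have h1 := hts s hs
    have h2 := abs_sub_abs_le_abs_sub s τ
    have h3 : r ≤ η / 2 - |τ| := min_le_right _ _
    linarith
  have e := coarea hg hd hw hh htc hsup
  have hr0 : 0 ≤ ∫ x, tent τ r (φ x) * h x * gradLen g φ x * dens g x := by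
    refine integral_nonneg fun x => ?_
    rcases eq_or_ne (tent τ r (φ x)) 0 with h0 | h0
    · simp [h0]
    · have h1 : |φ x - τ| ≤ δ :=
        (hts _ h0).le.trans ((min_le_left _ _).trans (min_le_right _ _))
      exact mul_nonneg (mul_nonneg (mul_nonneg (ht01 _).1 (hpos x h1)) (gradLen_nonneg g φ x))
        (dens_pos hg x).le
  have hle : ∀ s, tent τ r s * area g φ η s h ≤ tent τ r s * (area g φ η τ h / 2) := by
    intro s
    rcases eq_or_ne (tent τ r s) 0 with h0 | h0
    · simp [h0]
    · refine mul_le_mul_of_nonneg_left (hρn ?_).le (ht01 s).1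
      rw [Real.dist_eq]
      exact (hts s h0).trans_le ((min_le_left _ _).trans (min_le_left _ _))
  have htcs : HasCompactSupport (tent τ r) :=
    HasCompactSupport.intro (isCompact_Icc (a := τ - r) (b := τ + r)) fun s hs => by
      by_contra hne
      have := abs_lt.1 (hts s hne)
      exact hs ⟨by linarith, by linarith⟩
  have hti : Integrable (tent τ r) := htc.integrable_of_hasCompactSupport htcs
  have hfi : Integrable fun s => tent τ r s * area g φ η s h := by
    refine Continuous.integrable_of_hasCompactSupport ?_ htcs.mul_right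
    refine continuous_iff_continuousAt.2 fun s => ?_
    rcases eq_or_ne (tent τ r s) 0 with hz | hz
    · rw [ContinuousAt, hz, zero_mul]
      refine squeeze_zero_norm (fun y => ?_) (a := fun y => tent τ r y *
        ∫ x, |divg (fun z => dens g z • (h z • cutN g φ η z)) x|) ?_
      · rw [norm_mul, Real.norm_of_nonneg (ht01 y).1]
        exact mul_le_mul_of_nonneg_left (abs_area_le hg hd hw hh y) (ht01 y).1
      · simpa [hz] using (htc.tendsto s).mul_const
          (∫ x, |divg (fun z => dens g z • (h z • cutN g φ η z)) x|)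
    · exact htc.continuousAt.mul ((area_continuous hg hd hw hh).continuousAt
        (isOpen_Ioo.mem_nhds (abs_lt.1 (hsup s hz))))
  have hI : 0 < ∫ s, tent τ r s :=
    integral_pos_of_integrable_nonneg_nonzero htc hti (fun s => (ht01 s).1) (x := τ) (by simp [ht1])
  have := integral_mono hfi (hti.mul_const _) hle
  rw [integral_mul_const, e] at this
  nlinarith [not_le.1 hneg]

theorem area_nonneg (hg : IsMetric g) (hd : Defining φ) (hw : RegWindow φ η) (hτ : |τ| < η / 2)
    {h : Space n → ℝ} (hh : ContDiffOn ℝ 1 h (regSet φ)) (hpos : ∀ x, φ x = τ → 0 ≤ h x) :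
    0 ≤ area g φ η τ h := by
  have hτ1 := (lt_one_of_window hw hτ).le
  have hc1 : ContDiffOn ℝ 1 (fun _ : Space n => (1 : ℝ)) (regSet φ) := contDiffOn_const
  have hA1 : 0 ≤ area g φ η τ fun _ => 1 :=
    area_nonneg_near hg hd hw hτ hc1 one_pos fun _ _ => zero_le_one
  have key : ∀ ε : ℝ, 0 < ε → 0 ≤ area g φ η τ h + ε * area g φ η τ fun _ => 1 := by
    intro ε hε
    have hce : ContDiffOn ℝ 1 (fun x => h x + ε * 1) (regSet φ) := hh.add contDiffOn_const
    have hlin : area g φ η τ (fun x => h x + ε * 1) =
        area g φ η τ h + ε * area g φ η τ fun _ => 1 := by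
      rw [area_add hg hd hw hτ1 (h' := fun _ => ε * 1) hh contDiffOn_const,
        area_smul hg hd hw (h := fun _ => 1) hc1]
    rw [← hlin]
    obtain ⟨δ, hδ, hδp⟩ : ∃ δ > 0, ∀ x, |φ x - τ| ≤ δ → 0 ≤ h x + ε := by
      by_contra hc
      push Not at hc
      have hrk : ∀ k : ℕ, ∃ x, |φ x - τ| ≤ (η / 2 - |τ|) / ((k : ℝ) + 1) ∧ h x + ε < 0 :=
        fun k => hc _ (div_pos (sub_pos.2 hτ) (by positivity))
      choose u hu hun using hrk
      have hin : ∀ k, |φ (u k)| ≤ η / 2 := fun k => by
        have h1 := abs_sub_abs_le_abs_sub (φ (u k)) τ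
        have h2 : (η / 2 - |τ|) / ((k : ℝ) + 1) ≤ η / 2 - |τ| :=
          div_le_self (sub_pos.2 hτ).le (by simp)
        linarith [hu k]
      obtain ⟨R, hR⟩ := sub_subset_ball hd (le_refl (1 : ℝ))
      obtain ⟨x, -, ψ, hψ, hx⟩ := (isCompact_closedBall (0 : Space n) R).tendsto_subseq
        fun k => hR (show φ (u k) < 1 by
          linarith [hin k, le_abs_self (φ (u k)), hw.1, hw.2.1])
      have hφx : Tendsto (fun k => φ (u (ψ k))) atTop (𝓝 (φ x)) :=
        (hd.smooth.continuous.tendsto x).comp hx
      have hφt : Tendsto (fun k => φ (u (ψ k))) atTop (𝓝 τ) := by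
        refine tendsto_sub_nhds_zero_iff.1 (squeeze_zero_norm (fun k => hu (ψ k)) ?_)
        have := (tendsto_one_div_add_atTop_nhds_zero_nat.comp hψ.tendsto_atTop).const_mul
          (η / 2 - |τ|)
        simpa [Function.comp_def, div_eq_mul_inv] using this
      have hlev : φ x = τ := tendsto_nhds_unique hφx hφt
      have hcx : ContinuousAt h x := (contDiffAt_reg hd.smooth hh x
        (fderiv_ne_window hw (by rw [hlev]; exact hτ.le))).continuousAt
      have := le_of_tendsto ((hcx.tendsto.comp hx).add_const ε)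
        (Eventually.of_forall fun k => (hun (ψ k)).le)
      linarith [hpos x hlev]
    exact area_nonneg_near hg hd hw hτ hce hδ fun x hx => by simpa using hδp x hx
  by_contra hneg
  rcases hA1.eq_or_lt with hz | hp
  · have := key 1 one_pos
    rw [← hz] at this
    linarith [not_le.1 hneg]
  · have h2 := key (-area g φ η τ h / (2 * area g φ η τ fun _ => 1))
      (div_pos (by linarith [not_le.1 hneg]) (by linarith))
    have : -area g φ η τ h / (2 * area g φ η τ fun _ => 1) * area g φ η τ (fun _ => 1) =
        -area g φ η τ h / 2 := by field_simp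
    linarith [not_le.1 hneg]

theorem area_mono (hg : IsMetric g) (hd : Defining φ) (hw : RegWindow φ η) (hτ : |τ| < η / 2)
    {h h' : Space n → ℝ} (hh : ContDiffOn ℝ 1 h (regSet φ))
    (hh' : ContDiffOn ℝ 1 h' (regSet φ)) (hle : ∀ x, φ x = τ → h x ≤ h' x) :
    area g φ η τ h ≤ area g φ η τ h' := by
  have hd' : ContDiffOn ℝ 1 (fun x => h' x + -1 * h x) (regSet φ) :=
    hh'.add (contDiffOn_const.mul hh)
  have := area_nonneg hg hd hw hτ hd' fun x hx => by linarith [hle x hx]
  rw [area_add hg hd hw (lt_one_of_window hw hτ).le (h' := fun x => -1 * h x) hh'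
    (contDiffOn_const.mul hh), area_smul hg hd hw hh] at this
  linarith

theorem gPer_sub (hg : IsMetric g) (hd : Defining φ) (hw : RegWindow φ η) (hτ : |τ| < η / 2) :
    0 ≤ area g φ η τ (fun _ => 1) ∧
      Univ.gPer g (sub φ τ) = ENNReal.ofReal (area g φ η τ (fun _ => 1)) := by
  have hc1 : ContDiffOn ℝ 1 (fun _ : Space n => (1 : ℝ)) (regSet φ) := contDiffOn_const
  refine ⟨area_nonneg hg hd hw hτ hc1 fun _ _ => zero_le_one, le_antisymm ?_ ?_⟩
  · refine iSup₂_le fun Y hY => ENNReal.ofReal_le_ofReal ?_
    rw [← gInt_gDiv hg, flux hg hd hw hτ hY.1]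
    refine area_mono hg hd hw hτ (contDiffOn_normalPart hg hd hY.1) hc1 fun x _ => ?_
    exact (le_abs_self _).trans ((abs_g_le hg x _ _).trans
      (mul_le_one₀ (hY.2.2 x) (gNorm_nonneg g x _) (gNorm_unitN_le hg x)))
  · obtain ⟨h1, h2⟩ := contDiff_cutN hg hd hw
    refine le_trans ?_ (le_wPer h1 h2 (w := fun _ => 1) fun x => ?_)
    · simp [area_eq hg]
    · rw [cutN, gNorm_smul, abs_of_nonneg (bump_mem _).1]
      exact mul_le_one₀ (bump_mem _).2 (gNorm_nonneg g x _) (gNorm_unitN_le hg x)

theorem area_shift (hg : IsMetric g) (hd : Defining φ) (hw : RegWindow φ η) {η' : ℝ}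
    (hη' : 0 < η') (hτ : |τ| + η' < η / 2) {h : Space n → ℝ}
    (hh : ContDiffOn ℝ 1 h (regSet φ)) :
    area g (fun x => φ x - τ) η' 0 h = area g φ η τ h := by
  have hτ' : |τ| < η / 2 := by linarith
  have hsub : sub (fun x => φ x - τ) 0 = sub φ τ := by
    ext x
    simp [sub]
  have hN : ∀ x, unitN g (fun x => φ x - τ) x = unitN g φ x := fun x => by
    simp only [unitN, gradLen, gGrad, fderiv_sub_const]
  have hA : ContDiff ℝ 1 fun y => h y • cutN g (fun x => φ x - τ) η' y := by
    refine smul_cutN_contDiff hg (hd.smooth.sub contDiff_const) ⟨hη', ?_, fun x hx => ?_⟩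
      fun x hx => ?_
    · linarith [abs_nonneg τ, hw.2.1, hw.1]
    · rw [fderiv_sub_const]
      refine hw.2.2 x ?_
      have := abs_sub_abs_le_abs_sub (φ x) τ
      linarith [hw.1]
    · rw [fderiv_sub_const] at hx
      exact contDiffAt_reg hd.smooth hh x hx
  rw [area, hsub]
  refine flux_congr hg hd (lt_one_of_window hw hτ').le hA
    (smul_cutN_contDiff hg hd.smooth hw (contDiffAt_reg hd.smooth hh))
    (show 0 < η' / 2 by linarith) fun x hx => ?_
  have hx' : |φ x| ≤ η / 2 := by
    have := abs_sub_abs_le_abs_sub (φ x) τ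
    linarith
  have hb : bump ((φ x - τ) / η') = 1 := by
    refine bump_eq_one ?_
    rw [abs_div, abs_of_pos hη', div_le_iff₀ hη']
    linarith
  simp only [cutN, hN, hb, bump_window hw hx']

theorem area_congr (hg : IsMetric g) (hd : Defining φ) (hw : RegWindow φ η) (hτ : |τ| < η / 2)
    {h h' : Space n → ℝ} (hh : ContDiffOn ℝ 1 h (regSet φ))
    (hh' : ContDiffOn ℝ 1 h' (regSet φ)) (he : ∀ x, φ x = τ → h x = h' x) :
    area g φ η τ h = area g φ η τ h' :=
  le_antisymm (area_mono hg hd hw hτ hh hh' fun x hx => (he x hx).le)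
    (area_mono hg hd hw hτ hh' hh fun x hx => (he x hx).ge)

end

end Vale.Agent.P219.Six
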