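import Mathlib
import Vale.Agent.P219.Six.FirstVar.Pointwise
import Vale.Agent.P219.Six.FirstVar.Domain
import Vale.Agent.P219.Six.FirstVar.Field
import Vale.Agent.P219.Six.Surf

/-!
# The first variation of area and volume under the radial fields, uniformly in the pole

For all small `t` and every pole `a` of the ball `{ψ_o ≤ M}` every domain of the ball has a
competitor in the ball whose perimeter and volume are bounded to first order.
-/

open MeasureTheory Filter Topology Set
open scoped ENNReal ContDiff RealInnerProductSpace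

set_option maxSynthPendingDepth 3

namespace Vale.Agent.P219.Six

open Vale.Agent.P219 Vale.Agent.P219.Univ Vale.Agent.P219.Univ.FirstVar

noncomputable section

variable {n : ℕ} {g : MetricField n} {Exp Log : Space n → Space n → Space n}

/-- The first variation integrand of area for the profile `1 / (2 ψ + ε)` at the pole `a`. -/
def areaKer (Log : Space n → Space n → Space n) (g : MetricField n) (φ : Space n → ℝ) (ε : ℝ)
    (a z : Space n) : ℝ :=
  ((n : ℝ) - 1) / (2 * psi Log a z + ε) -
    2 * (2 * psi Log a z - fderiv ℝ (psi Log a) z (unitN g φ z) ^ 2) / (2 * psi Log a z + ε) ^ 2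

/-- The first variation integrand of volume. -/
def volKer (Log : Space n → Space n → Space n) (g : MetricField n) (φ : Space n → ℝ) (ε : ℝ)
    (a z : Space n) : ℝ :=
  fderiv ℝ (psi Log a) z (unitN g φ z) / (2 * psi Log a z + ε)

namespace FV

variable {φ : Space n → ℝ} {η : ℝ}

theorem psi_nonneg (Log : Space n → Space n → Space n) (a x : Space n) : 0 ≤ psi Log a x := by
  simp only [psi]; positivity

theorem contDiffOn_kers (hg : IsMetric g) (hc : JointCharts g Exp Log) (hd : Defining φ) {ε : ℝ}
    (hε : 0 < ε) (a : Space n) :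
    ContDiffOn ℝ 1 (areaKer Log g φ ε a) (regSet φ) ∧
      ContDiffOn ℝ 1 (volKer Log g φ ε a) (regSet φ) := by
  have hp : ContDiffOn ℝ 1 (fun z => fderiv ℝ (psi Log a) z (unitN g φ z)) (regSet φ) :=
    (((hc.smooth_psi_at a).fderiv_right (m := 1) (WithTop.coe_le_coe.2 le_top)).contDiffOn).clm_apply
      (contDiffOn_unitN hg hd)
  have hs : ContDiffOn ℝ 1 (fun z => 2 * psi Log a z + ε) (regSet φ) :=
    ((contDiff_const.mul ((hc.smooth_psi_at a).of_le (by simp))).add contDiff_const).contDiffOn
  have hne : ∀ z ∈ regSet φ, 2 * psi Log a z + ε ≠ 0 := fun z _ => by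
    have := psi_nonneg Log a z
    positivity
  exact ⟨(contDiffOn_const.div hs hne).sub ((contDiffOn_const.mul
    ((contDiffOn_const.mul ((hc.smooth_psi_at a).of_le (by simp)).contDiffOn).sub (hp.pow 2))).div
      (hs.pow 2) fun z hz => pow_ne_zero 2 (hne z hz)), hp.div hs hne⟩

theorem area_affine (hg : IsMetric g) (hd : Defining φ) (hw : RegWindow φ η) {h : Space n → ℝ}
    (hh : ContDiffOn ℝ 1 h (regSet φ)) (a b : ℝ) :
    area g φ η 0 (fun z => a + b * h z) =
      a * area g φ η 0 (fun _ => 1) + b * area g φ η 0 h := by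
  have h1 : ContDiffOn ℝ 1 (fun _ : Space n => (1 : ℝ)) (regSet φ) := contDiffOn_const
  rw [area_add hg hd hw zero_le_one (h := fun _ => a) (h' := fun z => b * h z) contDiffOn_const
    (contDiffOn_const.mul hh), area_smul hg hd hw hh,
    show (fun _ : Space n => a) = fun x => a * (fun _ : Space n => (1 : ℝ)) x by simp,
    area_smul hg hd hw h1]

/-- The variation at one pole. -/
theorem variation_one (hn : 2 ≤ n) (hg : IsMetric g) (hc : JointCharts g Exp Log)
    (hs : SecBound g 0) (o : Space n) {M : ℝ} (hM : 0 < M) {ε e : ℝ} (hε : 0 < ε) (he : 0 < e)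
    (a : Space n) (ha : psi Log o a ≤ M) :
    ∀ᶠ t in 𝓝[>] (0 : ℝ), ∀ φ : Space n → ℝ, ∀ η : ℝ, Defining φ → RegWindow φ η →
      sub φ 0 ⊆ {x | psi Log o x ≤ M} →
      ∃ φ', Defining φ' ∧ sub φ' 0 ⊆ {x | psi Log o x ≤ M} ∧
        (Univ.gPer g (sub φ' 0)).toReal ≤ (1 + t * e) * area g φ η 0 (fun _ => 1) -
          t * area g φ η 0 (areaKer Log g φ ε a) ∧
        (1 - t * e) * Univ.gVol g (sub φ 0) - t * area g φ η 0 (volKer Log g φ ε a) -
          t * e * area g φ η 0 (fun _ => 1) ≤ Univ.gVol g (sub φ' 0) := by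
  set κ := e / (Real.sqrt (2 * M) + 1)
  have hκ : 0 < κ := by positivity
  set X := field g Log ε κ o M a
  have hXs : ContDiff ℝ ∞ X := contDiff_field hg hc hε κ o M a
  have hX : ContDiff ℝ 2 X := hXs.of_le (WithTop.coe_le_coe.2 le_top)
  have hX1 : ContDiff ℝ 1 X := hX.of_le (by norm_num)
  have hXc : HasCompactSupport X := compact_field hn hg hc hs ε κ o M a
  have hpo := pot_psi hn hg hc hs o
  have hK : IsCompact {x | psi Log o x ≤ M} := hpo.compact M
  -- the field points outwards on the boundary of the ball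
  have hout : ∀ x, psi Log o x = M → 0 < fderiv ℝ (psi Log o) x (X x) := by
    intro x hx
    rw [show X x = radial g Log ε a x + κ • gGrad g (psi Log o) x from
      (field_eventually (g := g) hc (ε := ε) (κ := κ) (a := a) hx.le).eq_of_nhds, map_add,
      radial, map_smul, map_smul, smul_eq_mul, smul_eq_mul,
      prof_eq hε (by linarith [psi_nonneg Log a x]), ← gGrad_dual hg (psi Log o) x (gGrad g (psi Log o) x),
      grad_psi_sq hg hc]
    have h1 := psi_convex hg hc hs o a x
    have h2 : 0 ≤ 1 / (2 * psi Log a x + ε) := by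
      have := psi_nonneg Log a x; positivity
    have h3 := mul_nonneg h2 (show 0 ≤ fderiv ℝ (psi Log o) x (gGrad g (psi Log a) x) by
      linarith [psi_nonneg Log a x])
    rw [hx]
    have := mul_pos hκ (show 0 < 2 * M by linarith)
    linarith
  filter_upwards [(eventually_good hX hXc).filter_mono nhdsWithin_le_nhds,
    normal_bound hg hX hK he, ratio_bounds hg hX hK he, stays_inside hpo.smooth hX hK hout,
    eventually_mem_nhdsWithin] with t hgood hnb hrb hin htpos φ η hd hw hsub
  have ht : 0 < t := htpos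
  obtain ⟨φ', hd', hsub'⟩ := image_domain hX hXc hgood hd
  have hE : MeasurableSet (sub φ 0) := Surf.measurableSet_sub hd.smooth.continuous 0
  have hlev : ∀ z, φ z = 0 → psi Log o z ≤ M ∧ g z (unitN g φ z) (unitN g φ z) = 1 := by
    intro z hz
    refine ⟨(closure_minimal hsub hK.isClosed)
      (mem_closure_sub (hd.smooth.differentiable (by norm_num) z) hz (hd.reg z hz)), ?_⟩
    rw [← gNorm_sq hg, Surf.gNorm_unitN hg (hd.reg z hz), one_pow]
  have hτ : |(0 : ℝ)| < η / 2 := by rw [abs_zero]; linarith [hw.1]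
  obtain ⟨hka, hkv⟩ := contDiffOn_kers hg hc hd hε a
  have hc1 : ContDiffOn ℝ 1 (fun _ : Space n => (1 : ℝ)) (regSet φ) := contDiffOn_const
  refine ⟨φ', hd', ?_, ?_, ?_⟩
  · rw [hsub']
    rintro _ ⟨x, hx, rfl⟩
    exact hin x (hsub hx)
  · set B := (1 + t * e) * area g φ η 0 (fun _ => 1) - t * area g φ η 0 (areaKer Log g φ ε a)
    have key : ∀ Y : Space n → Space n, ContDiff ℝ 1 Y → HasCompactSupport Y →
        (∀ x, gNorm g x (Y x) ≤ 1) →
        ∫ x in sub φ' 0, divg (fun y => dens g y • Y y) x ≤ B := by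
      intro Y hY1 hYc hYn
      obtain ⟨W, hW⟩ : ∃ W : Space n → Space n, W = fun y => dens g y • Y y := ⟨_, rfl⟩
      have hW1 : ContDiff ℝ 1 W := hW ▸ contDiff_weighted hg hY1
      have hWc : HasCompactSupport W := hW ▸ hasCompactSupport_weighted (g := g) hYc
      obtain ⟨hV, hVc, hpi⟩ := hgood.piola_spec hX hW1 hWc
      obtain ⟨Z, hZ⟩ : ∃ Z : Space n → Space n, Z = fun x => (dens g x)⁻¹ • piola X t W x :=
        ⟨_, rfl⟩
      have hZd : (fun y => dens g y • Z y) = piola X t W := by
        funext y
        rw [hZ, smul_smul, mul_inv_cancel₀ (dens_pos hg y).ne', one_smul]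
      have hZ1 : ContDiff ℝ 1 Z := by
        rw [hZ]
        exact (((contDiff_dens hg).of_le (by simp)).inv fun x => (dens_pos hg x).ne').smul hV
      have hBeq : B = area g φ η 0 fun z => (1 + t * e) + -t * areaKer Log g φ ε a z := by
        rw [area_affine hg hd hw hka]; ring
      rw [hsub', hgood.integral_image hX hE, ← hW, hBeq]
      simp only [← hpi]
      rw [← hZd, ← gInt_gDiv hg, flux hg hd hw hτ hZ1]
      refine area_mono hg hd hw hτ (contDiffOn_normalPart hg hd hZ1)
        (contDiffOn_const.add (contDiffOn_const.mul hka)) fun z hz => ?_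
      obtain ⟨hzK, hN⟩ := hlev z hz
      obtain ⟨w, hw'⟩ : ∃ w, w = (dDisp X t z).inverse (Y (disp X t z)) := ⟨_, rfl⟩
      have hwY : dDisp X t z w = Y (disp X t z) := by
        rw [hw', (hgood.dDisp_inverse hX z).self_apply_inverse]
      have hZx : Z z = ratio g X t z • w := by
        rw [hZ, hw']
        simp only [piola, hW, map_smul, smul_smul, ratio]
        congr 1
        rw [inv_mul_eq_div]
      have hY2 : sqPush g X t (z, w) ≤ 1 := by
        simp only [sqPush, hwY]
        exact Real.sqrt_le_one.1 (hYn _)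
      have h := hnb z hzK _ hN w hY2
      have hth : areaKer Log g φ ε a z ≤
          gDiv g X z - g z (cov g X z (unitN g φ z)) (unitN g φ z) :=
        theta_lower hn hg hc hs hε hκ.le hzK hN
      have h2 := mul_le_mul_of_nonneg_left hth ht.le
      rw [hZx, map_smul, smul_apply, smul_eq_mul]
      linarith
    have hB : 0 ≤ B := by
      have := key (fun _ => 0) contDiff_const HasCompactSupport.zero fun x => by simp [gNorm_zero]
      simpa [divg, pd] using this
    have hle : Univ.gPer g (sub φ' 0) ≤ ENNReal.ofReal B := iSup₂_le fun Y hY =>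
      ENNReal.ofReal_le_ofReal (key Y hY.1 hY.2.1 hY.2.2)
    exact (ENNReal.toReal_mono ENNReal.ofReal_ne_top hle).trans_eq (ENNReal.toReal_ofReal hB)
  · have hdc : Continuous fun x => gDiv g X x * dens g x := by
      simp only [gDiv_mul_dens hg]
      exact continuous_divg (contDiff_weighted hg hX1)
    have hi1 : IntegrableOn (dens g) (sub φ 0) :=
      Surf.integrableOn_sub hd zero_le_one (contDiff_dens hg).continuous
    have hi2 : IntegrableOn (fun x => gDiv g X x * dens g x) (sub φ 0) :=
      Surf.integrableOn_sub hd zero_le_one hdc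
    have hir : IntegrableOn (fun x => ratio g X t x * dens g x) (sub φ 0) :=
      Surf.integrableOn_sub hd zero_le_one
        (((contDiff_ratio hg hX).continuous.comp (continuous_const.prodMk continuous_id)).mul
          (contDiff_dens hg).continuous)
    have hV' : Univ.gVol g (sub φ' 0) = ∫ x in sub φ 0, ratio g X t x * dens g x := by
      rw [Univ.gVol, hsub', hgood.integral_image hX hE]
      refine setIntegral_congr_fun hE fun x _ => ?_
      simp only [ratio]
      field_simp [(dens_pos hg x).ne']
    have hlow : (1 - t * e) * Univ.gVol g (sub φ 0) - t * gInt g (sub φ 0) (gDiv g X) ≤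
        Univ.gVol g (sub φ' 0) := by
      rw [hV']
      simp only [Univ.gVol, gInt]
      rw [← integral_const_mul, ← integral_const_mul t, ← integral_sub (hi1.const_mul _) (hi2.const_mul _)]
      refine setIntegral_mono_on ((hi1.const_mul _).sub (hi2.const_mul _)) hir hE fun x hx => ?_
      have h := mul_le_mul_of_nonneg_right (hrb x (hsub hx)).1 (dens_pos hg x).le
      linarith
    have hflux : gInt g (sub φ 0) (gDiv g X) ≤
        area g φ η 0 (volKer Log g φ ε a) + e * area g φ η 0 (fun _ => 1) := by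
      have e1 := area_affine hg hd hw hkv e 1
      rw [flux hg hd hw hτ hX1]
      refine le_trans (area_mono hg hd hw hτ (contDiffOn_normalPart hg hd hX1)
        (contDiffOn_const.add (contDiffOn_const.mul hkv)) fun z hz => ?_) (by linarith)
      obtain ⟨hzK, hN⟩ := hlev z hz
      rw [show X z = radial g Log ε a z + κ • gGrad g (psi Log o) z from
        (field_eventually (g := g) hc (ε := ε) (κ := κ) (a := a) hzK).eq_of_nhds, map_add,
        _root_.add_apply, radial, map_smul, map_smul, smul_apply, smul_apply, smul_eq_mul,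
        smul_eq_mul, gGrad_dual hg, gGrad_dual hg, prof_eq hε (by linarith [psi_nonneg Log a z]),
        volKer]
      have hb : |fderiv ℝ (psi Log o) z (unitN g φ z)| ≤ Real.sqrt (2 * M) := by
        rw [← gGrad_dual hg (psi Log o) z]
        refine (abs_g_le hg z _ _).trans ?_
        simp only [gNorm, hN, Real.sqrt_one, mul_one]
        refine Real.sqrt_le_sqrt ?_
        rw [grad_psi_sq hg hc]; linarith
      have hb2 : κ * fderiv ℝ (psi Log o) z (unitN g φ z) ≤ e := by
        refine (mul_le_mul_of_nonneg_left ((le_abs_self _).trans hb) hκ.le).trans ?_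
        simp only [κ]
        rw [div_mul_eq_mul_div, div_le_iff₀ (by positivity)]
        exact mul_le_mul_of_nonneg_left (by linarith) he.le
      have e2 : ∀ p q : ℝ, 1 / q * p = p / q := fun p q => by ring
      rw [e2]
      linarith
    have h2 := mul_le_mul_of_nonneg_left hflux ht.le
    linarith

/-- The two kernels as functions of the pole, the point and the normal. -/
def ker (n : ℕ) (Log : Space n → Space n → Space n) (ε : ℝ)
    (q : Space n × Space n × Space n) : ℝ × ℝ :=
  (((n : ℝ) - 1) / (2 * psi Log q.1 q.2.1 + ε) -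
      2 * (2 * psi Log q.1 q.2.1 - fderiv ℝ (psi Log q.1) q.2.1 q.2.2 ^ 2) /
        (2 * psi Log q.1 q.2.1 + ε) ^ 2,
    fderiv ℝ (psi Log q.1) q.2.1 q.2.2 / (2 * psi Log q.1 q.2.1 + ε))

theorem continuous_ker (hc : JointCharts g Exp Log) {ε : ℝ} (hε : 0 < ε) :
    Continuous (ker n Log ε) := by
  have hs := hc.smooth_psi
  have hd : ∀ a z W, fderiv ℝ (psi Log a) z W =
      fderiv ℝ (fun p : Space n × Space n => psi Log p.1 p.2) (a, z) (0, W) := by
    intro a z W
    have h1 : HasFDerivAt (fun y : Space n => (a, y))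
        (ContinuousLinearMap.inr ℝ (Space n) (Space n)) z :=
      (hasFDerivAt_const a z).prodMk (hasFDerivAt_id (𝕜 := ℝ) z)
    have h2 := ((hs.differentiable (by simp)) (a, z)).hasFDerivAt.comp z h1
    rw [show psi Log a = (fun p : Space n × Space n => psi Log p.1 p.2) ∘ fun y => (a, y) from rfl,
      h2.fderiv]
    rfl
  have h1 : Continuous fun q : Space n × Space n × Space n =>
      fderiv ℝ (psi Log q.1) q.2.1 q.2.2 := by
    simp only [hd]
    exact ((hs.continuous_fderiv (by simp)).comp (continuous_fst.prodMk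
      (continuous_fst.comp continuous_snd))).clm_apply
      (continuous_const.prodMk (continuous_snd.comp continuous_snd))
  have h2 : Continuous fun q : Space n × Space n × Space n => 2 * psi Log q.1 q.2.1 + ε :=
    (continuous_const.mul (hs.continuous.comp (continuous_fst.prodMk
      (continuous_fst.comp continuous_snd)))).add continuous_const
  have h3 : ∀ q : Space n × Space n × Space n, 2 * psi Log q.1 q.2.1 + ε ≠ 0 := fun q => by
    have := psi_nonneg Log q.1 q.2.1
    positivity
  exact ((continuous_const.div h2 h3).sub ((continuous_const.mul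
    ((continuous_const.mul (hs.continuous.comp (continuous_fst.prodMk
      (continuous_fst.comp continuous_snd)))).sub (h1.pow 2))).div (h2.pow 2)
      fun q => pow_ne_zero 2 (h3 q))).prodMk (h1.div h2 h3)

/-- The variation, uniformly in the pole. -/
theorem variation (hn : 2 ≤ n) (hg : IsMetric g) (hc : JointCharts g Exp Log)
    (hs : SecBound g 0) (o : Space n) {M : ℝ} (hM : 0 < M) {ε e : ℝ} (hε : 0 < ε) (he : 0 < e) :
    ∀ᶠ t in 𝓝[>] (0 : ℝ), ∀ a, psi Log o a ≤ M → ∀ φ : Space n → ℝ, ∀ η : ℝ, Defining φ →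
      RegWindow φ η → sub φ 0 ⊆ {x | psi Log o x ≤ M} →
      ∃ φ', Defining φ' ∧ sub φ' 0 ⊆ {x | psi Log o x ≤ M} ∧
        (Univ.gPer g (sub φ' 0)).toReal ≤ (1 + t * e) * area g φ η 0 (fun _ => 1) -
          t * area g φ η 0 (areaKer Log g φ ε a) ∧
        (1 - t * e) * Univ.gVol g (sub φ 0) - t * area g φ η 0 (volKer Log g φ ε a) -
          t * e * area g φ η 0 (fun _ => 1) ≤ Univ.gVol g (sub φ' 0) := by
  have hK := (pot_psi hn hg hc hs o).compact M
  obtain ⟨m, hm, hmK⟩ := coercive hg hK
  set U := {p : Space n × Space n | psi Log o p.1 ≤ M ∧ g p.1 p.2 p.2 = 1}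
  have hU : IsCompact U := by
    refine (hK.prod (isCompact_closedBall (0 : Space n) (Real.sqrt (1 / m)))).of_isClosed_subset
      ((hK.isClosed.preimage continuous_fst).inter (isClosed_eq
        (contDiff_quad hg (F := Space n × Space n) contDiff_fst contDiff_snd).continuous
        continuous_const)) fun p hp => ⟨hp.1, mem_closedBall_zero_iff.2 ?_⟩
    refine Real.le_sqrt_of_sq_le ?_
    rw [le_div_iff₀ hm]
    linarith [hmK p.1 hp.1 p.2, hp.2]
  have hnear : ∀ a₀, ∀ᶠ a in 𝓝 a₀, ∀ p ∈ U, dist (ker n Log ε (a, p)) (ker n Log ε (a₀, p)) < e / 2 :=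
    fun a₀ => hU.eventually_forall_of_forall_eventually (x₀ := a₀) fun p _ =>
      Tendsto.eventually_lt_const (f := fun q : Space n × (Space n × Space n) =>
        dist (ker n Log ε q) (ker n Log ε (a₀, q.2))) (by simp; linarith)
        ((continuous_ker hc hε).dist ((continuous_ker hc hε).comp
          (continuous_const.prodMk continuous_snd))).continuousAt
  obtain ⟨S, hS, hcov⟩ := hK.elim_nhds_subcover _ fun a₀ _ => hnear a₀
  filter_upwards [(S.eventually_all).2 fun a₀ ha₀ =>
    variation_one hn hg hc hs o hM hε (half_pos he) a₀ (hS a₀ ha₀), eventually_mem_nhdsWithin]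
    with t hall htpos a ha φ η hd hw hsub
  have ht : 0 < t := htpos
  obtain ⟨a₀, ha₀, ha₀'⟩ := mem_iUnion₂.1 (hcov ha)
  obtain ⟨φ', hd', hsub', hP, hV⟩ := hall a₀ ha₀ φ η hd hw hsub
  have hτ : |(0 : ℝ)| < η / 2 := by rw [abs_zero]; linarith [hw.1]
  obtain ⟨hka, hkv⟩ := contDiffOn_kers hg hc hd hε a
  obtain ⟨hka₀, hkv₀⟩ := contDiffOn_kers hg hc hd hε a₀
  have hclose : ∀ z, φ z = 0 → |areaKer Log g φ ε a z - areaKer Log g φ ε a₀ z| < e / 2 ∧
      |volKer Log g φ ε a z - volKer Log g φ ε a₀ z| < e / 2 := by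
    intro z hz
    have h := ha₀' (z, unitN g φ z) ⟨(closure_minimal hsub hK.isClosed)
      (mem_closure_sub (hd.smooth.differentiable (by norm_num) z) hz (hd.reg z hz)), by
      rw [← gNorm_sq hg, Surf.gNorm_unitN hg (hd.reg z hz), one_pow]⟩
    rw [Prod.dist_eq, max_lt_iff, Real.dist_eq, Real.dist_eq] at h
    exact h
  have e1 := area_affine hg hd hw hka₀ (e / 2) 1
  have h1 := area_mono hg hd hw hτ hka (contDiffOn_const.add (contDiffOn_const.mul hka₀))
    (h' := fun z => e / 2 + 1 * areaKer Log g φ ε a₀ z) fun z hz => by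
      linarith [(abs_lt.1 (hclose z hz).1).2]
  have e2 := area_affine hg hd hw hkv (e / 2) 1
  have h2 := area_mono hg hd hw hτ hkv₀ (contDiffOn_const.add (contDiffOn_const.mul hkv))
    (h' := fun z => e / 2 + 1 * volKer Log g φ ε a z) fun z hz => by
      linarith [(abs_lt.1 (hclose z hz).2).1]
  rw [e1] at h1
  rw [e2] at h2
  have h1' := mul_le_mul_of_nonneg_left h1 ht.le
  have h2' := mul_le_mul_of_nonneg_left h2 ht.le
  have hA : 0 ≤ area g φ η 0 (fun _ => 1) :=
    area_nonneg hg hd hw hτ contDiffOn_const fun _ _ => zero_le_one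
  have hV0 : 0 ≤ Univ.gVol g (sub φ 0) :=
    integral_nonneg fun x => (dens_pos hg x).le
  have h3 := mul_nonneg (mul_nonneg ht.le he.le) hV0
  exact ⟨φ', hd', hsub', by linarith, by linarith⟩

end FV

end

end Vale.Agent.P219.Six
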