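import Mathlib
import Vale.Agent.P219.Six.FirstVar

/-!
# Near minimisers among the domains of a geodesic ball

If some domain has negative deficit, there is a domain of negative deficit whose nearby levels
almost satisfy the first variation inequalities at every pole.
-/

open MeasureTheory Filter Topology Set
open scoped ENNReal ContDiff RealInnerProductSpace

namespace Vale.Agent.P219.Six

open Vale.Agent.P219 Vale.Agent.P219.Univ

noncomputable section

variable {n : ℕ} {g : MetricField n} {Exp Log : Space n → Space n → Space n}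

/-- The deficit in dimension `n`. -/
def deficitN (g : MetricField n) (c : ℝ) (E : Set (Space n)) : ℝ :=
  (Univ.gPer g E).toReal - c * Univ.gVol g E ^ (1 - (n : ℝ)⁻¹)

namespace FV

/-- The tangent line lies above a power with exponent at most one. -/
theorem rpow_tangent {p w s : ℝ} (hp0 : 0 ≤ p) (hp1 : p ≤ 1) (hw : 0 < w) (hs : 0 ≤ s) :
    s ^ p ≤ w ^ p + p * w ^ (p - 1) * (s - w) := by
  have h := mul_le_mul_of_nonneg_left
    (rpow_one_add_le_one_add_mul_self (show -1 ≤ s / w - 1 by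
      linarith [div_nonneg hs hw.le]) hp0 hp1) (Real.rpow_nonneg hw.le p)
  rw [show 1 + (s / w - 1) = s / w by ring, Real.div_rpow hs hw.le, mul_div_assoc',
    mul_div_cancel_left₀ _ (Real.rpow_pos_of_pos hw p).ne'] at h
  refine h.trans (le_of_eq ?_)
  rw [Real.rpow_sub_one hw.ne']
  field_simp

/-- The arithmetic of the near minimiser. -/
theorem near_alg {c p t e₁ H Vm Pm Cv : ℝ} (hc : 0 ≤ c) (hp0 : 0 ≤ p) (hp1 : p ≤ 1) (ht : 0 < t)
    (he : 0 < e₁) {A0 Aq P1 V1 V' P' b0 d : ℝ} (hW : 0 < V1 - t * (e₁ * V1 + Aq + e₁ * P1))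
    (hP' : P' ≤ (1 + t * e₁) * P1 - t * A0)
    (hV' : (1 - t * e₁) * V1 - t * Aq - t * e₁ * P1 ≤ V')
    (hd : d ≤ P' - c * V' ^ p) (hnear : P1 - c * V1 ^ p ≤ d + t * e₁)
    (hP1 : P1 ≤ Pm) (hP10 : 0 ≤ P1) (hV1 : V1 ≤ Vm) (hV10 : 0 ≤ V1) (hAq : |Aq| ≤ Cv * P1)
    (hH : c * p * (V1 - t * (e₁ * V1 + Aq + e₁ * P1)) ^ (p - 1) ≤ H)
    (hb : |c * p * (V1 - t * (e₁ * V1 + Aq + e₁ * P1)) ^ (p - 1) - b0| ≤ e₁) (hCv : 0 ≤ Cv) :
    A0 - b0 * Aq ≤ e₁ * (Pm + 1 + H * (Vm + Pm) + Cv * Pm) := by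
  set W := V1 - t * (e₁ * V1 + Aq + e₁ * P1) with hWd
  set bW := c * p * W ^ (p - 1) with hbW
  have hbW0 : 0 ≤ bW := mul_nonneg (mul_nonneg hc hp0) (Real.rpow_nonneg hW.le _)
  have h1 : c * W ^ p ≤ c * V' ^ p := by
    refine mul_le_mul_of_nonneg_left (Real.rpow_le_rpow hW.le ?_ hp0) hc
    rw [hWd]; linarith
  have h2 := mul_le_mul_of_nonneg_left (rpow_tangent hp0 hp1 hW hV10) hc
  have h3 : t * (A0 - bW * (e₁ * V1 + Aq + e₁ * P1)) ≤ t * (e₁ * P1 + e₁) := by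
    have e : c * (p * W ^ (p - 1) * (V1 - W)) = t * (bW * (e₁ * V1 + Aq + e₁ * P1)) := by
      rw [hbW, hWd]; ring
    linarith
  have h4 := le_of_mul_le_mul_left h3 ht
  have h5 : (bW - b0) * Aq ≤ e₁ * (Cv * Pm) :=
    (le_abs_self _).trans (by
      rw [abs_mul]
      exact mul_le_mul hb (hAq.trans (mul_le_mul_of_nonneg_left hP1 hCv)) (abs_nonneg _) he.le)
  have h6 : bW * (e₁ * V1 + e₁ * P1) ≤ H * (e₁ * Vm + e₁ * Pm) :=
    mul_le_mul hH (add_le_add (mul_le_mul_of_nonneg_left hV1 he.le)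
      (mul_le_mul_of_nonneg_left hP1 he.le)) (by positivity) (hbW0.trans hH)
  have h7 := mul_le_mul_of_nonneg_left hP1 he.le
  linarith

theorem gVol_mono (hg : IsMetric g) {A B : Set (Space n)} (hB : Bornology.IsBounded B)
    (h : A ⊆ B) : Univ.gVol g A ≤ Univ.gVol g B := by
  obtain ⟨R, hR⟩ := hB.subset_closedBall 0
  exact setIntegral_mono_set (integrableOn_of_bounded (contDiff_dens hg).continuous hR)
    (ae_of_all _ fun x => (dens_pos hg x).le) h.eventuallyLE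

theorem gVol_nonneg (hg : IsMetric g) (A : Set (Space n)) : 0 ≤ Univ.gVol g A :=
  integral_nonneg fun x => (dens_pos hg x).le

end FV

namespace FV

/-- The variation at a nearby level, seen in the window of the zero level. -/
theorem level_vary (hg : IsMetric g) (hc : JointCharts g Exp Log) {φ : Space n → ℝ} {η τ : ℝ}
    (hd : Defining φ) (hw : RegWindow φ η) (hτ0 : τ < 0) (habs : |τ| < η / 2) {K : Set (Space n)}
    (hsub : sub φ τ ⊆ K) {ε t e₁ Cv : ℝ} (hε : 0 < ε) (hCv : Cv = 1 / Real.sqrt ε) (a : Space n)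
    (hvar : ∀ ψ : Space n → ℝ, ∀ η : ℝ, Defining ψ → RegWindow ψ η → sub ψ 0 ⊆ K →
      ∃ φ', Defining φ' ∧ sub φ' 0 ⊆ K ∧
        (Univ.gPer g (sub φ' 0)).toReal ≤ (1 + t * e₁) * area g ψ η 0 (fun _ => 1) -
          t * area g ψ η 0 (areaKer Log g ψ ε a) ∧
        (1 - t * e₁) * Univ.gVol g (sub ψ 0) - t * area g ψ η 0 (volKer Log g ψ ε a) -
          t * e₁ * area g ψ η 0 (fun _ => 1) ≤ Univ.gVol g (sub φ' 0)) :
    ∃ φ', Defining φ' ∧ sub φ' 0 ⊆ K ∧
      (Univ.gPer g (sub φ' 0)).toReal ≤ (1 + t * e₁) * area g φ η τ (fun _ => 1) -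
          t * area g φ η τ (areaKer Log g φ ε a) ∧
      (1 - t * e₁) * Univ.gVol g (sub φ τ) - t * area g φ η τ (volKer Log g φ ε a) -
          t * e₁ * area g φ η τ (fun _ => 1) ≤ Univ.gVol g (sub φ' 0) ∧
      |area g φ η τ (volKer Log g φ ε a)| ≤ Cv * area g φ η τ (fun _ => 1) := by
  have hc1 : ContDiffOn ℝ 1 (fun _ : Space n => (1 : ℝ)) (regSet φ) := contDiffOn_const
  obtain ⟨hP10, -⟩ := gPer_sub hg hd hw habs
  set ψ : Space n → ℝ := fun x => φ x - τ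
  have hd' : Defining ψ := by
    obtain ⟨R', hR'⟩ := hd.far
    refine ⟨hd.smooth.sub contDiff_const, ⟨R', fun x hx => ?_⟩, fun x hx => ?_⟩
    · show 1 ≤ φ x - τ
      linarith [hR' x hx]
    · simp only [ψ, fderiv_sub_const]
      have hxτ : φ x = τ := by simp only [ψ] at hx; linarith
      exact hw.2.2 x (by rw [hxτ]; linarith [hw.1])
  set η' := (η / 2 - |τ|) / 2
  have hη' : 0 < η' := by simp only [η']; linarith
  have hτη : |τ| + η' < η / 2 := by simp only [η']; linarith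
  have hw' : RegWindow ψ η' := by
    refine ⟨hη', by linarith [hw.2.1, abs_nonneg τ, hw.1], fun x hx => ?_⟩
    simp only [ψ, fderiv_sub_const]
    refine hw.2.2 x ?_
    have h1 := abs_sub_abs_le_abs_sub (φ x) τ
    have hx' : |φ x - τ| ≤ η' := hx
    linarith [hw.1]
  have hsub0 : sub ψ 0 = sub φ τ := by ext x; simp [sub, ψ]
  have hN : ∀ z, unitN g ψ z = unitN g φ z := fun z => by
    simp only [unitN, gradLen, gGrad, ψ, fderiv_sub_const]
  have hka : areaKer Log g ψ ε a = areaKer Log g φ ε a := by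
    funext z; simp only [areaKer, hN]
  have hkv : volKer Log g ψ ε a = volKer Log g φ ε a := by
    funext z; simp only [volKer, hN]
  obtain ⟨hcka, hckv⟩ := contDiffOn_kers hg hc hd hε a
  obtain ⟨φ', hd'', hφ'K, hP', hV'⟩ := hvar ψ η' hd' hw' (by rw [hsub0]; exact hsub)
  rw [hka, area_shift hg hd hw hη' hτη hc1, area_shift hg hd hw hη' hτη hcka] at hP'
  rw [hkv, hsub0, area_shift hg hd hw hη' hτη hc1, area_shift hg hd hw hη' hτη hckv] at hV'
  set Aq := area g φ η τ (volKer Log g φ ε a)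
  set P1 := area g φ η τ fun _ => 1
  have hq : ∀ z, φ z = τ → |volKer Log g φ ε a z| ≤ Cv := by
    intro z hz
    have hN1 : gNorm g z (unitN g φ z) ≤ 1 := Surf.gNorm_unitN_le hg z
    have h1 : |fderiv ℝ (psi Log a) z (unitN g φ z)| ≤ Real.sqrt (2 * psi Log a z) := by
      rw [← gGrad_dual hg (psi Log a) z]
      refine (abs_g_le hg z _ _).trans ((mul_le_of_le_one_right (gNorm_nonneg g z _) hN1).trans
        (le_of_eq ?_))
      rw [gNorm, grad_psi_sq hg hc]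
    have hψ := psi_nonneg Log a z
    rw [hCv, volKer, abs_div, abs_of_pos (show 0 < 2 * psi Log a z + ε by positivity),
      div_le_div_iff₀ (by positivity) (Real.sqrt_pos.2 hε), one_mul]
    refine (mul_le_mul_of_nonneg_right h1 (Real.sqrt_nonneg ε)).trans ?_
    nlinarith [sq_nonneg (Real.sqrt (2 * psi Log a z) - Real.sqrt ε), Real.sq_sqrt hε.le,
      Real.sq_sqrt (show 0 ≤ 2 * psi Log a z by positivity)]
  have hτ1' := (lt_one_of_window hw habs).le
  have hAq : |Aq| ≤ Cv * P1 := by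
    have hu := area_mono hg hd hw habs hckv
      (h' := fun x => Cv * (fun _ : Space n => (1 : ℝ)) x) (contDiffOn_const.mul hc1)
      fun z hz => by simpa using (abs_le.1 (hq z hz)).2
    have hl := area_mono hg hd hw habs
      (h := fun x => -Cv * (fun _ : Space n => (1 : ℝ)) x) (contDiffOn_const.mul hc1) hckv
      fun z hz => by simpa using (abs_le.1 (hq z hz)).1
    rw [area_smul hg hd hw hc1] at hu hl
    rw [abs_le]
    constructor <;> linarith
  exact ⟨φ', hd'', hφ'K, hP', hV', hAq⟩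

end FV

open FV in
/-- Near minimisers with almost stationary nearby levels. -/
theorem near_gen (hn : 2 ≤ n) (hg : IsMetric g) (hc : JointCharts g Exp Log) (hs : SecBound g 0)
    {c : ℝ} (hc0 : 0 < c) {φ₀ : Space n → ℝ} (h₀ : Defining φ₀)
    (hneg : deficitN g c (sub φ₀ 0) < 0) :
    ∃ m Vmax : ℝ, 0 < m ∧ ∀ ε e : ℝ, 0 < ε → 0 < e → ∃ φ η, Defining φ ∧ RegWindow φ η ∧
      deficitN g c (sub φ 0) ≤ -m ∧ Univ.gVol g (sub φ 0) ≤ Vmax ∧
      ∀ τ ∈ Ioo (-(η / 2)) 0, ∀ a, φ a = τ →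
        area g φ η τ (fun z => areaKer Log g φ ε a z -
          c * (1 - (n : ℝ)⁻¹) * Univ.gVol g (sub φ 0) ^ (-(n : ℝ)⁻¹) * volKer Log g φ ε a z) ≤ e := by
  obtain ⟨o, ho⟩ : ∃ o : Space n, o = 0 := ⟨0, rfl⟩
  have hpo := pot_psi hn hg hc hs o
  obtain ⟨R, hR⟩ := Surf.sub_subset_ball h₀ (τ := 0) zero_le_one
  obtain ⟨Mb, hMb⟩ := (isCompact_closedBall (0 : Space n) R).exists_bound_of_continuousOn
    hpo.smooth.continuous.continuousOn
  set M := max Mb 0 + 1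
  have hM : 0 < M := by positivity
  set K := {x | psi Log o x ≤ M}
  have hKb : Bornology.IsBounded K := (hpo.compact M).isBounded
  have h₀K : sub φ₀ 0 ⊆ K := fun x hx => by
    have := (le_abs_self _).trans ((hMb x (hR hx)).trans (le_max_left Mb 0))
    show psi Log o x ≤ max Mb 0 + 1
    linarith
  set Vmax := Univ.gVol g K
  refine ⟨-deficitN g c (sub φ₀ 0), Vmax, by linarith, fun ε e hε he => ?_⟩
  set p : ℝ := 1 - (n : ℝ)⁻¹
  have hn2 : (2 : ℝ) ≤ n := by exact_mod_cast hn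
  have hp1 : p ≤ 1 := by simp [p]
  have hp0 : 0 < p := by
    have : (n : ℝ)⁻¹ ≤ 2⁻¹ := inv_anti₀ two_pos hn2
    simp only [p]; linarith
  set m := -deficitN g c (sub φ₀ 0)
  have hm : 0 < m := by simp only [m]; linarith
  set v0 := (m / c) ^ p⁻¹
  have hv0 : 0 < v0 := Real.rpow_pos_of_pos (by positivity) _
  set Pm := c * Vmax ^ p + 1
  have hVmax : 0 ≤ Vmax := gVol_nonneg hg K
  have hPm : 0 < Pm := by positivity
  set b : ℝ → ℝ := fun s => c * p * s ^ (p - 1)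
  set H := b (v0 / 4)
  set Cv := 1 / Real.sqrt ε
  set K0 := Pm + 1 + H * (Vmax + Pm) + Cv * Pm
  have hK0 : 0 < K0 := by positivity
  set e₁ := e / K0
  have he₁ : 0 < e₁ := by positivity
  -- the mean curvature is uniformly continuous in the volume
  have hbc : ContinuousOn b (Icc (v0 / 4) (Vmax + v0)) := by
    refine continuousOn_const.mul (continuousOn_id.rpow_const fun s hs => Or.inl ?_)
    have : v0 / 4 ≤ s := hs.1
    exact (lt_of_lt_of_le (by linarith) this).ne'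
  obtain ⟨ρ, hρ, hbu⟩ := Metric.uniformContinuousOn_iff.1
    (isCompact_Icc.uniformContinuousOn_of_continuous hbc) e₁ he₁
  set Dm := e₁ * Vmax + (Cv + e₁) * Pm
  have hDm : 0 < Dm := by positivity
  obtain ⟨t, hvar, ht⟩ := ((variation hn hg hc hs o hM hε he₁).and
    (Ioo_mem_nhdsGT (show 0 < min (v0 / 4) (ρ / 2) / Dm by positivity))).exists
  have ht0 : 0 < t := ht.1
  have htD : t * Dm < min (v0 / 4) (ρ / 2) := (lt_div_iff₀ hDm).1 ht.2
  -- a near minimiser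
  set D := {φ : Space n → ℝ | Defining φ ∧ sub φ 0 ⊆ K}
  have hbdd : BddBelow ((fun φ => deficitN g c (sub φ 0)) '' D) := by
    refine ⟨-(c * Vmax ^ p), ?_⟩
    rintro _ ⟨φ, hφ, rfl⟩
    have h1 : Univ.gVol g (sub φ 0) ^ p ≤ Vmax ^ p :=
      Real.rpow_le_rpow (gVol_nonneg hg _) (gVol_mono hg hKb hφ.2) hp0.le
    simp only [deficitN]
    have h2 := (Univ.gPer g (sub φ 0)).toReal_nonneg
    nlinarith
  set d := sInf ((fun φ => deficitN g c (sub φ 0)) '' D)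
  have hdle : ∀ φ ∈ D, d ≤ deficitN g c (sub φ 0) := fun φ hφ => csInf_le hbdd ⟨φ, hφ, rfl⟩
  obtain ⟨φ, hφD, hφ1, hφ2⟩ : ∃ φ ∈ D, deficitN g c (sub φ 0) < d + t * e₁ / 2 ∧
      deficitN g c (sub φ 0) ≤ -m := by
    obtain ⟨_, ⟨φ₁, hφ₁, rfl⟩, h1⟩ := exists_lt_of_csInf_lt
      (s := (fun φ => deficitN g c (sub φ 0)) '' D) ⟨_, φ₀, ⟨h₀, h₀K⟩, rfl⟩
      (show d < d + t * e₁ / 2 by linarith [mul_pos ht0 he₁])
    rcases le_total (deficitN g c (sub φ₁ 0)) (deficitN g c (sub φ₀ 0)) with h | h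
    · exact ⟨φ₁, hφ₁, h1, by simpa [m] using h⟩
    · exact ⟨φ₀, ⟨h₀, h₀K⟩, h.trans_lt h1, by simp [m]⟩
  obtain ⟨hd, hφK⟩ := hφD
  obtain ⟨η₀, hw₀⟩ := exists_window hd
  set V0 := Univ.gVol g (sub φ 0)
  have hV0m : V0 ≤ Vmax := gVol_mono hg hKb hφK
  have hV00 : 0 ≤ V0 := gVol_nonneg hg _
  have hdef : (Univ.gPer g (sub φ 0)).toReal - c * V0 ^ p ≤ -m := hφ2
  have hV0 : v0 ≤ V0 := by
    have h1 : m / c ≤ V0 ^ p := by
      rw [div_le_iff₀ hc0]
      linarith [(Univ.gPer g (sub φ 0)).toReal_nonneg]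
    calc v0 ≤ (V0 ^ p) ^ p⁻¹ := Real.rpow_le_rpow (by positivity) h1 (by positivity)
      _ = V0 := by rw [← Real.rpow_mul hV00, mul_inv_cancel₀ hp0.ne', Real.rpow_one]
  have hP0 : (Univ.gPer g (sub φ 0)).toReal < Pm := by
    have h1 : V0 ^ p ≤ Vmax ^ p := Real.rpow_le_rpow hV00 hV0m hp0.le
    have := mul_le_mul_of_nonneg_left h1 hc0.le
    simp only [Pm]; linarith
  -- nearby levels
  have hz : (0 : ℝ) ∈ Ioo (-(η₀ / 2)) (η₀ / 2) := by
    constructor <;> linarith [hw₀.1]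
  have hc1 : ContDiffOn ℝ 1 (fun _ : Space n => (1 : ℝ)) (regSet φ) := contDiffOn_const
  have hcA := (area_continuous hg hd hw₀ hc1).continuousAt (isOpen_Ioo.mem_nhds hz)
  have hcV := (gVol_continuous hg hd hw₀).continuousAt (isOpen_Ioo.mem_nhds hz)
  have hP0eq : (Univ.gPer g (sub φ 0)).toReal = area g φ η₀ 0 fun _ => 1 := by
    obtain ⟨h1, h2⟩ := gPer_sub hg hd hw₀ (τ := 0) (by rw [abs_zero]; linarith [hw₀.1])
    rw [h2, ENNReal.toReal_ofReal h1]
  have hev : ∀ᶠ τ in 𝓝 (0 : ℝ), |τ| < η₀ / 2 ∧ dist (Univ.gVol g (sub φ τ)) V0 < min (v0 / 2) (ρ / 2) ∧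
      area g φ η₀ τ (fun _ => 1) < Pm ∧
      area g φ η₀ τ (fun _ => 1) - c * Univ.gVol g (sub φ τ) ^ p < d + t * e₁ := by
    refine ((continuous_abs.tendsto' (0 : ℝ) 0 abs_zero).eventually_lt_const
      (by linarith [hw₀.1])).and ((Metric.tendsto_nhds.1 hcV _ (by positivity)).and
      ((hcA.eventually_lt_const (show area g φ η₀ 0 (fun _ => 1) < Pm by rw [← hP0eq]; exact hP0)).and ?_))
    refine (hcA.sub ((hcV.rpow_const (Or.inr hp0.le)).const_mul c)).eventually_lt_const ?_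
    show area g φ η₀ 0 (fun _ => 1) - c * V0 ^ p < d + t * e₁
    rw [← hP0eq]
    have : (Univ.gPer g (sub φ 0)).toReal - c * V0 ^ p < d + t * e₁ / 2 := hφ1
    linarith [mul_pos ht0 he₁]
  obtain ⟨r, hr, hball⟩ := Metric.eventually_nhds_iff.1 hev
  set η := min r (η₀ / 2)
  have hη0 : 0 < η := lt_min hr (by linarith [hw₀.1])
  have hηle : η ≤ η₀ := (min_le_right _ _).trans (by linarith [hw₀.1])
  have hw : RegWindow φ η := ⟨hη0, hηle.trans_lt hw₀.2.1, fun x hx => hw₀.2.2 x (hx.trans hηle)⟩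
  refine ⟨φ, η, hd, hw, hφ2, hV0m, fun τ hτ a ha => ?_⟩
  have hτ0 : τ < 0 := hτ.2
  have habs : |τ| < η / 2 := by rw [abs_of_neg hτ0]; linarith [hτ.1]
  obtain ⟨hτ1, hVd, hP1', hF1⟩ := hball (y := τ) (by
    rw [Real.dist_eq, sub_zero]; linarith [min_le_left r (η₀ / 2)])
  obtain ⟨hVd1, hVd2⟩ := lt_min_iff.1 hVd
  rw [Real.dist_eq, abs_lt] at hVd1
  rw [Real.dist_eq, abs_lt] at hVd2
  set V1 := Univ.gVol g (sub φ τ)
  set P1 := area g φ η τ fun _ => 1
  obtain ⟨hP10, hPer1⟩ := gPer_sub hg hd hw habs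
  have hPeq : area g φ η₀ τ (fun _ => 1) = P1 := by
    obtain ⟨h1, h2⟩ := gPer_sub hg hd hw₀ hτ1
    rw [hPer1, ENNReal.ofReal_eq_ofReal_iff hP10 h1] at h2
    exact h2.symm
  rw [hPeq] at hP1' hF1
  have hsub : sub φ τ ⊆ K := fun x hx => hφK (lt_trans (show φ x < τ from hx) hτ0)
  have haK : psi Log o a ≤ M := hφK (show φ a < 0 by rw [ha]; exact hτ0)
  have hV10 : 0 ≤ V1 := gVol_nonneg hg _
  have hV1m : V1 ≤ Vmax := gVol_mono hg hKb hsub
  obtain ⟨φ', hd'', hφ'K, hP', hV', hAq⟩ := level_vary hg hc hd hw hτ0 habs hsub hε (Cv := Cv) rfl a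
    (hvar a haK)
  set A0 := area g φ η τ (areaKer Log g φ ε a)
  set Aq := area g φ η τ (volKer Log g φ ε a)
  obtain ⟨hcka, hckv⟩ := contDiffOn_kers hg hc hd hε a
  have hτ1' := (lt_one_of_window hw habs).le
  have hd1 : d ≤ (Univ.gPer g (sub φ' 0)).toReal - c * Univ.gVol g (sub φ' 0) ^ p :=
    hdle φ' ⟨hd'', hφ'K⟩
  obtain ⟨hAq1, hAq2⟩ := abs_le.1 hAq
  set W := V1 - t * (e₁ * V1 + Aq + e₁ * P1)
  have hΔ : |t * (e₁ * V1 + Aq + e₁ * P1)| ≤ t * Dm := by
    rw [abs_mul, abs_of_pos ht0]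
    refine mul_le_mul_of_nonneg_left ?_ ht0.le
    have a1 := mul_le_mul_of_nonneg_left hV1m he₁.le
    have a2 := mul_le_mul_of_nonneg_left hP1'.le he₁.le
    have a3 := mul_nonneg he₁.le hV10
    have a4 := mul_nonneg he₁.le hP10
    have a5 : Cv * P1 ≤ Cv * Pm := mul_le_mul_of_nonneg_left hP1'.le (by positivity)
    have a6 := mul_nonneg he₁.le hVmax
    have a7 := mul_nonneg he₁.le hPm.le
    simp only [Dm]
    rw [abs_le]
    constructor <;> linarith
  obtain ⟨hΔ1, hΔ2⟩ := abs_le.1 hΔ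
  obtain ⟨htD1, htD2⟩ := lt_min_iff.1 htD
  have hW4 : v0 / 4 ≤ W := by simp only [W]; linarith
  have hWm : W ≤ Vmax + v0 := by simp only [W]; linarith
  have hH : c * p * W ^ (p - 1) ≤ H := by
    simp only [H, b]
    refine mul_le_mul_of_nonneg_left ?_ (by positivity)
    exact Real.rpow_le_rpow_of_nonpos (by positivity) hW4 (by linarith)
  have hbb : |b W - b V0| ≤ e₁ := by
    have := hbu W ⟨hW4, hWm⟩ V0 ⟨by linarith, by linarith⟩ (by
      rw [Real.dist_eq, abs_lt]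
      constructor <;> simp only [W] <;> linarith)
    rw [Real.dist_eq] at this
    exact this.le
  have main := near_alg hc0.le hp0.le hp1 ht0 he₁ (lt_of_lt_of_le (by positivity) hW4) hP' hV' hd1
    hF1.le hP1'.le hP10 hV1m hV10 hAq hH hbb (by positivity)
  have hlin : area g φ η τ (fun z => areaKer Log g φ ε a z -
      c * p * V0 ^ (p - 1) * volKer Log g φ ε a z) = A0 + -(b V0) * Aq := by
    rw [← area_smul hg hd hw hckv, ← area_add hg hd hw hτ1' hcka (contDiffOn_const.mul hckv)]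
    congr 1
    funext z
    simp only [b]; ring
  rw [show -(n : ℝ)⁻¹ = p - 1 by simp [p], hlin]
  have e2 : e₁ * K0 = e := by simp only [e₁]; field_simp
  simp only [K0] at e2
  linarith

/-- Near minimisers in dimension six. -/
theorem near {g₆ : MetricField 6} {Ex Lo : Space 6 → Space 6 → Space 6} (hg : IsMetric g₆)
    (hc : JointCharts g₆ Ex Lo) (hs : SecBound g₆ 0) {c : ℝ} (hc0 : 0 < c) {φ₀ : Space 6 → ℝ}
    (h₀ : Defining φ₀) (hneg : deficit g₆ c (sub φ₀ 0) < 0) :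
    ∃ m Vmax : ℝ, 0 < m ∧ ∀ ε e : ℝ, 0 < ε → 0 < e → ∃ φ η, Defining φ ∧ RegWindow φ η ∧
      deficit g₆ c (sub φ 0) ≤ -m ∧ Univ.gVol g₆ (sub φ 0) ≤ Vmax ∧
      ∀ τ ∈ Ioo (-(η / 2)) 0, ∀ a, φ a = τ →
        area g₆ φ η τ (fun z => beta (5 * (c * Univ.gVol g₆ (sub φ 0) ^ (-(1 / 6) : ℝ) / 6)) ε
          (2 * psi Lo a z) (fderiv ℝ (psi Lo a) z (unitN g₆ φ z))) ≤ e := by
  have hE : ∀ E, deficitN g₆ c E = deficit g₆ c E := fun E => by
    simp only [deficitN, deficit]; norm_num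
  obtain ⟨m, Vmax, hm, h⟩ := near_gen (by norm_num) hg hc hs hc0 h₀ (by rwa [hE])
  refine ⟨m, Vmax, hm, fun ε e hε he => ?_⟩
  obtain ⟨φ, η, hd, hw, h1, h2, h3⟩ := h ε e hε he
  refine ⟨φ, η, hd, hw, by rwa [hE] at h1, h2, fun τ hτ a ha => le_of_eq_of_le ?_ (h3 τ hτ a ha)⟩
  congr 1
  funext z
  simp only [beta, areaKer, volKer]
  norm_num
  ring

end

end Vale.Agent.P219.Six
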