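import Mathlib
import Vale.Agent.P219.Six.Exit.Basic
import Vale.Agent.P219.Six.Surf

/-!
# Transversality, change of variables and the polar inequality at first exits
-/

open MeasureTheory Filter Topology Set Metric
open scoped ENNReal ContDiff

namespace Vale.Agent.P219.Six

open Vale.Agent.P219 Vale.Agent.P219.Univ Vale.Agent.P219.Six.Surf

noncomputable section

variable {n : ℕ} {g : MetricField n} {Exp Log : Space n → Space n → Space n}
  {φ : Space n → ℝ} {η τ : ℝ}

/-- Exits are transversal for almost every level. -/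
theorem exit_transversal (hc : JointCharts g Exp Log) (hd : Defining φ) (x v : Space n)
    (hv : v ≠ 0) :
    ∀ᵐ s : ℝ, φ x < s → s < 1 →
      0 < fderiv ℝ φ (Exp x (exitT Exp φ s x v • v)) (vel Exp x v (exitT Exp φ s x v)) := by
  set f : ℝ → ℝ := fun t => φ (Exp x (t • v))
  set f' : ℝ → ℝ := fun t => fderiv ℝ φ (Exp x (t • v)) (vel Exp x v t)
  have hf : ∀ t, HasDerivAt f (f' t) t := hasDerivAt_phi_ray hc hd.smooth x v
  have hnull : volume (f '' {t | f' t = 0}) = 0 := by
    refine addHaar_image_eq_zero_of_det_fderivWithin_eq_zero volume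
      (f' := fun _ => (0 : ℝ →L[ℝ] ℝ)) (fun t (ht : f' t = 0) => ?_) fun t _ => ?_
    · have := (hf t).hasFDerivAt.hasFDerivWithinAt (s := {t | f' t = 0})
      rwa [ht, show ContinuousLinearMap.toSpanSingleton ℝ (0 : ℝ) = 0 from by ext; simp] at this
    · simp
  filter_upwards [measure_eq_zero_iff_ae_notMem.1 hnull] with s hs hxs hs1
  obtain ⟨hT, hTs, hlow⟩ := exit_spec hc hd x v hv hs1 hxs
  set T := exitT Exp φ s x v
  have hne : f' T ≠ 0 := fun h0 => hs ⟨T, h0, hTs⟩
  refine lt_of_le_of_ne ?_ (Ne.symm hne)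
  have hlim : Tendsto (slope f T) (𝓝[<] T) (𝓝 (f' T)) :=
    (hasDerivAt_iff_tendsto_slope.1 (hf T)).mono_left
      (nhdsWithin_mono _ fun t (ht : t < T) => ne_of_lt ht)
  refine ge_of_tendsto hlim ?_
  filter_upwards [Ioo_mem_nhdsLT hT] with t ht
  rw [slope_def_field]
  exact div_nonneg_of_nonpos (by have := hlow t ht.1.le ht.2; simp only [f]; linarith)
    (by linarith [ht.2])

/-- One variable change of variables at first exits, with a weight. -/
theorem exit_change (hc : JointCharts g Exp Log) (hd : Defining φ) (x v : Space n) (hv : v ≠ 0)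
    (H : ℝ → ℝ → ℝ≥0∞) :
    ∫⁻ s in Ioo (φ x) 1, H s (exitT Exp φ s x v) =
      ∫⁻ t in {t : ℝ | 0 < t ∧ φ x < φ (Exp x (t • v)) ∧ φ (Exp x (t • v)) < 1 ∧
          exitT Exp φ (φ (Exp x (t • v))) x v = t},
        ENNReal.ofReal |fderiv ℝ φ (Exp x (t • v)) (vel Exp x v t)| *
          H (φ (Exp x (t • v))) t := by
  set G := {t : ℝ | 0 < t ∧ φ x < φ (Exp x (t • v)) ∧ φ (Exp x (t • v)) < 1 ∧
    exitT Exp φ (φ (Exp x (t • v))) x v = t} with hG
  have hfc : Continuous fun t : ℝ => φ (Exp x (t • v)) := continuous_phi_ray hc hd.smooth x v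
  have hGm : MeasurableSet G := by
    have h4 : Measurable fun t : ℝ => exitT Exp φ (φ (Exp x (t • v))) x v :=
      (measurable_exitT hc hd).comp
        (hfc.measurable.prodMk (measurable_const (a := ((x, v) : Space n × Space n))))
    exact measurableSet_Ioi.inter ((measurableSet_lt measurable_const hfc.measurable).inter
      ((measurableSet_lt hfc.measurable measurable_const).inter
        (measurableSet_eq_fun h4 measurable_id)))
  have himg : (fun t : ℝ => φ (Exp x (t • v))) '' G = Ioo (φ x) 1 := by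
    refine Subset.antisymm ?_ fun s hs => ?_
    · rintro s ⟨t, ht, rfl⟩
      exact ⟨ht.2.1, ht.2.2.1⟩
    · obtain ⟨hT, hTs, -⟩ := exit_spec hc hd x v hv hs.2 hs.1
      exact ⟨exitT Exp φ s x v, ⟨hT, by rw [hTs]; exact hs.1, by rw [hTs]; exact hs.2,
        by rw [hTs]⟩, hTs⟩
  have hinj : InjOn (fun t : ℝ => φ (Exp x (t • v))) G := fun t ht t' ht' h => by
    rw [← ht.2.2.2, ← ht'.2.2.2]
    simp only at h
    rw [h]
  rw [← himg, lintegral_image_eq_lintegral_abs_deriv_mul hGm
    (fun t _ => (hasDerivAt_phi_ray hc hd.smooth x v t).hasDerivWithinAt) hinj]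
  exact setLIntegral_congr_fun hGm fun t ht => by rw [ht.2.2.2]

/-- A transversal exit carries at least its share of any narrow tent. -/
theorem tent_lower (hc : JointCharts g Exp Log) (hd : Defining φ) (y v : Space n) {T c : ℝ}
    (hT : 0 < T) (hTs : φ (Exp y (T • v)) = τ)
    (hD : 0 < fderiv ℝ φ (Exp y (T • v)) (vel Exp y v T)) {Ψ : ℝ → ℝ} (hΨ : ContinuousAt Ψ T)
    (hc0 : 0 ≤ c) (hcΨ : c * fderiv ℝ φ (Exp y (T • v)) (vel Exp y v T) < Ψ T) :
    ∃ ρ > 0, ∀ r, 0 < r → r ≤ ρ → ENNReal.ofReal (c * ∫ s, tent τ r s) ≤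
      ∫⁻ t in Ioi (0 : ℝ), ENNReal.ofReal (tent τ r (φ (Exp y (t • v))) * Ψ t) := by
  set f : ℝ → ℝ := fun t => φ (Exp y (t • v))
  set f' : ℝ → ℝ := fun t => fderiv ℝ φ (Exp y (t • v)) (vel Exp y v t)
  have hf : ∀ t, HasDerivAt f (f' t) t := hasDerivAt_phi_ray hc hd.smooth y v
  have hfc : Continuous f := continuous_phi_ray hc hd.smooth y v
  have hf'c : Continuous f' := continuous_dphi_ray hc hd.smooth y v
  obtain ⟨δ, hδ, hδp⟩ := Metric.eventually_nhds_iff.1
    (((hf'c.tendsto T).eventually (lt_mem_nhds hD)).and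
      ((eventually_gt_nhds hT).and
        (((continuousAt_const.mul hf'c.continuousAt).sub hΨ).tendsto.eventually
          (gt_mem_nhds (show c * f' T - Ψ T < 0 from sub_neg.2 hcΨ)))))
  set a := T - δ / 2
  set b := T + δ / 2
  have hab : ∀ t ∈ Icc a b, 0 < f' t ∧ 0 < t ∧ c * f' t < Ψ t := fun t ht => by
    obtain ⟨h1, h2, h3⟩ := hδp (show dist t T < δ by
      rw [Real.dist_eq, abs_lt]
      obtain ⟨ht1, ht2⟩ := ht
      simp only [a, b] at ht1 ht2
      constructor <;> linarith)
    exact ⟨h1, h2, by simpa using h3⟩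
  have hmono : StrictMonoOn f (Icc a b) :=
    strictMonoOn_of_deriv_pos (convex_Icc a b) hfc.continuousOn fun t ht => by
      rw [interior_Icc] at ht
      rw [(hf t).deriv]
      exact (hab t (Ioo_subset_Icc_self ht)).1
  have hTI : T ∈ Icc a b := ⟨by simp only [a]; linarith, by simp only [b]; linarith⟩
  have hfa : f a < τ := by
    rw [← hTs]
    exact hmono (left_mem_Icc.2 (by simp only [a, b]; linarith)) hTI (by simp only [a]; linarith)
  have hfb : τ < f b := by
    rw [← hTs]
    exact hmono hTI (right_mem_Icc.2 (by simp only [a, b]; linarith)) (by simp only [b]; linarith)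
  refine ⟨min (τ - f a) (f b - τ), lt_min (by linarith) (by linarith), fun r hr hrρ => ?_⟩
  obtain ⟨htc, ht01, hts, -⟩ := tent_props τ hr
  have hti : Integrable (tent τ r) := htc.integrable_of_hasCompactSupport
    (HasCompactSupport.intro (isCompact_Icc (a := τ - r) (b := τ + r)) fun s hs => by
      by_contra hne
      have := abs_lt.1 (hts s hne)
      exact hs ⟨by linarith, by linarith⟩)
  calc ENNReal.ofReal (c * ∫ s, tent τ r s)
      = ∫⁻ s, ENNReal.ofReal (c * tent τ r s) := by
        rw [← integral_const_mul, ofReal_integral_eq_lintegral_ofReal (hti.const_mul c)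
          (ae_of_all _ fun s => mul_nonneg hc0 (ht01 s).1)]
    _ = ∫⁻ s in f '' Icc a b, ENNReal.ofReal (c * tent τ r s) := by
        refine (setLIntegral_eq_of_support_subset fun s hs => ?_).symm
        have hne : tent τ r s ≠ 0 := fun h => hs (by simp [h])
        have hlt := abs_lt.1 (hts s hne)
        refine intermediate_value_Icc (by simp only [a, b]; linarith) hfc.continuousOn ⟨?_, ?_⟩
        · linarith [hrρ.trans (min_le_left _ _)]
        · linarith [hrρ.trans (min_le_right _ _)]
    _ = ∫⁻ t in Icc a b, ENNReal.ofReal |f' t| * ENNReal.ofReal (c * tent τ r (f t)) :=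
        lintegral_image_eq_lintegral_abs_deriv_mul measurableSet_Icc
          (fun t _ => (hf t).hasDerivWithinAt) hmono.injOn _
    _ ≤ ∫⁻ t in Icc a b, ENNReal.ofReal (tent τ r (f t) * Ψ t) := by
        refine setLIntegral_mono' measurableSet_Icc fun t ht => ?_
        obtain ⟨h1, -, h3⟩ := hab t ht
        rw [← ENNReal.ofReal_mul (abs_nonneg _), abs_of_pos h1]
        refine ENNReal.ofReal_le_ofReal ?_
        calc f' t * (c * tent τ r (f t)) = tent τ r (f t) * (c * f' t) := by ring
          _ ≤ tent τ r (f t) * Ψ t := mul_le_mul_of_nonneg_left h3.le (ht01 _).1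
    _ ≤ _ := lintegral_mono_set fun t ht => (hab t ht).2.1

theorem continuous_jac_dir (hg : IsMetric g) (hc : JointCharts g Exp Log) (y : Space n) :
    Continuous fun p : Metric.sphere (0 : Space n) 1 × ℝ =>
      p.2 ^ (n - 1) * jac g Exp y (p.2 • (p.1 : Space n)) :=
  (continuous_snd.pow _).mul ((continuous_jac hg hc).comp
    (continuous_const.prodMk (continuous_snd.smul (continuous_subtype_val.comp continuous_fst))))

/-- The polar formula on a level set, as an inequality. -/
theorem exit_area [NeZero n] (hg : IsMetric g) (hc : JointCharts g Exp Log) (hd : Defining φ)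
    (hw : RegWindow φ η) (hτ : |τ| < η / 2) {y : Space n} (hy : φ y = τ) {h : Space n → ℝ}
    (hh : ContDiffOn ℝ 1 h (regSet φ)) (hh0 : ∀ x, |φ x| ≤ η → 0 ≤ h x) :
    ∫⁻ v, ({v : Metric.sphere (0 : Space n) 1 |
        fderiv ℝ φ y (vel Exp y v 0) < 0 ∧
          0 < fderiv ℝ φ (Exp y (exitT Exp φ τ y v • (v : Space n)))
            (vel Exp y v (exitT Exp φ τ y v))}.indicator fun v =>
        ENNReal.ofReal (exitT Exp φ τ y v ^ (n - 1) *
          jac g Exp y (exitT Exp φ τ y v • (v : Space n)) *
          h (Exp y (exitT Exp φ τ y v • (v : Space n))) /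
          cosN g φ (Exp y (exitT Exp φ τ y v • (v : Space n))) (vel Exp y v (exitT Exp φ τ y v)))) v
      ∂dirs n ≤ ENNReal.ofReal (area g φ η τ h) := by
  have hτ1 : τ ≤ 1 := (lt_one_of_window hw hτ).le
  have hpos : (0 : ℝ) < η / 2 - |τ| := sub_pos.2 hτ
  set r : ℕ → ℝ := fun k => (η / 2 - |τ|) / ((k : ℝ) + 1) with hrdef
  have hr : ∀ k, 0 < r k := fun k => div_pos hpos (by positivity)
  have hr0 : Tendsto r atTop (𝓝 0) := by
    have := tendsto_one_div_add_atTop_nhds_zero_nat.const_mul (η / 2 - |τ|)
    simpa [hrdef, div_eq_mul_inv] using this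
  have hsup : ∀ k s, tent τ (r k) s ≠ 0 → |s| < η / 2 := fun k s hs => by
    have h1 := (tent_props τ (hr k)).2.2.1 s hs
    have h2 := abs_sub_abs_le_abs_sub s τ
    have h3 : r k ≤ η / 2 - |τ| := div_le_self hpos.le (by simp)
    linarith
  have hti : ∀ k, Integrable (tent τ (r k)) := fun k => by
    refine (tent_props τ (hr k)).1.integrable_of_hasCompactSupport
      (HasCompactSupport.intro (isCompact_Icc (a := -η) (b := η)) fun s hs => ?_)
    by_contra hne
    have := abs_lt.1 (hsup k s hne)
    exact hs ⟨by linarith [hw.1], by linarith [hw.1]⟩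
  set K : ℕ → ℝ := fun k => ∫ s, tent τ (r k) s
  have hK : ∀ k, 0 < K k := fun k => integral_pos_of_integrable_nonneg_nonzero
    (tent_props τ (hr k)).1 (hti k) (fun s => ((tent_props τ (hr k)).2.1 s).1) (x := τ)
    (by simp [(tent_props τ (hr k)).2.2.2])
  set W : ℕ → Space n → ℝ := fun k z => tent τ (r k) (φ z) * h z * gradLen g φ z with hW
  have hWc : ∀ k, Continuous (W k) := fun k => continuous_iff_continuousAt.2 fun z => by
    rcases lt_or_ge |φ z| η with hz | hz
    · exact (((tent_props τ (hr k)).1.comp hd.smooth.continuous).continuousAt.mul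
        (contDiffAt_reg hd.smooth hh z (hw.2.2 z hz.le)).continuousAt).mul
        (gradLen_continuous hg hd.smooth).continuousAt
    · refine (continuousAt_const (y := (0 : ℝ))).congr ?_
      filter_upwards [(continuous_abs.comp hd.smooth.continuous).continuousAt.eventually
        (isOpen_Ioi.mem_nhds (show η / 2 < |φ z| by linarith [hw.1]))] with u hu
      have : tent τ (r k) (φ u) = 0 := by
        by_contra hne
        exact lt_asymm (hsup k _ hne) hu
      simp [hW, this]
  have hW0 : ∀ k z, 0 ≤ W k z := fun k z => by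
    rcases eq_or_ne (tent τ (r k) (φ z)) 0 with h0 | h0
    · simp [hW, h0]
    · exact mul_nonneg (mul_nonneg ((tent_props τ (hr k)).2.1 _).1
        (hh0 z (by linarith [hsup k _ h0, hw.1]))) (gradLen_nonneg g φ z)
  obtain ⟨R, hR⟩ := sub_subset_ball hd (le_refl (1 : ℝ))
  have hWs : ∀ k, HasCompactSupport (W k) := fun k =>
    HasCompactSupport.intro (isCompact_closedBall (0 : Space n) R) fun z hz => by
      by_contra hne
      have h0 : tent τ (r k) (φ z) ≠ 0 := fun h0 => hne (by simp [hW, h0])
      exact hz (hR (show φ z < 1 by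
        linarith [hsup k _ h0, le_abs_self (φ z), hw.1, hw.2.1]))
  set F : ℕ → Metric.sphere (0 : Space n) 1 → ℝ≥0∞ := fun k v =>
    ∫⁻ t in Ioi (0 : ℝ), ENNReal.ofReal (W k (Exp y (t • (v : Space n))) / K k) *
      ENNReal.ofReal (t ^ (n - 1) * jac g Exp y (t • (v : Space n))) with hFdef
  have hFm : ∀ k, Measurable (F k) := fun k => by
    have h1 : Continuous fun p : Metric.sphere (0 : Space n) 1 × ℝ =>
        W k (Exp y (p.2 • (p.1 : Space n))) / K k :=
      ((hWc k).comp ((hc.smooth_exp_at y).continuous.comp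
        (continuous_snd.smul (continuous_subtype_val.comp continuous_fst)))).div_const _
    exact (h1.measurable.ennreal_ofReal.mul
      (continuous_jac_dir hg hc y).measurable.ennreal_ofReal).lintegral_prod_right'
  have hI : ∀ k, ∫⁻ v, F k v ∂dirs n =
      ENNReal.ofReal ((∫ s, tent τ (r k) s * area g φ η s h) / K k) := by
    intro k
    simp only [hFdef]
    rw [← polar hc y (f := fun z => ENNReal.ofReal (W k z / K k))
      ((hWc k).div_const _).measurable.ennreal_ofReal]
    have e1 : ∀ z, ENNReal.ofReal (W k z / K k) * ENNReal.ofReal (dens g z) =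
        ENNReal.ofReal (W k z / K k * dens g z) := fun z =>
      (ENNReal.ofReal_mul (div_nonneg (hW0 k z) (hK k).le)).symm
    simp only [e1]
    rw [← ofReal_integral_eq_lintegral_ofReal]
    · rw [coarea hg hd hw hh (tent_props τ (hr k)).1 (hsup k), ← integral_div]
      refine congrArg _ (integral_congr_ae (ae_of_all _ fun z => ?_))
      simp only [hW]
      ring
    · exact (((hWc k).div_const _).mul (contDiff_dens hg).continuous).integrable_of_hasCompactSupport
        (((hWs k).comp_left (g := fun u : ℝ => u / K k) (by simp)).mul_right)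
    · exact ae_of_all _ fun z => mul_nonneg (div_nonneg (hW0 k z) (hK k).le) (dens_pos hg z).le
  refine le_trans ?_ (ENNReal.le_of_forall_pos_le_add fun ε hε _ => ?_ :
    liminf (fun k => ∫⁻ v, F k v ∂dirs n) atTop ≤ ENNReal.ofReal (area g φ η τ h))
  · refine le_trans (lintegral_mono fun v => ?_) (lintegral_liminf_le hFm)
    refine indicator_apply_le' (fun hv => ?_) fun _ => zero_le
    obtain ⟨hin, hout⟩ := hv
    have hv0 : (v : Space n) ≠ 0 := ne_zero_of_mem_unit_sphere v
    set T := exitT Exp φ τ y v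
    set z := Exp y (T • (v : Space n))
    have hlow : ∀ᶠ t in 𝓝[>] (0 : ℝ), φ (Exp y (t • (v : Space n))) < τ := by
      have h1 : HasDerivAt (fun t : ℝ => φ (Exp y (t • (v : Space n))))
          (fderiv ℝ φ y (vel Exp y v 0)) 0 := by
        have := hasDerivAt_phi_ray hc hd.smooth y (v : Space n) 0
        rwa [zero_smul, hc.zero] at this
      filter_upwards [((hasDerivAt_iff_tendsto_slope.1 h1).mono_left
        (nhdsWithin_mono _ fun t (ht : (0 : ℝ) < t) => ne_of_gt ht)).eventually
          (gt_mem_nhds hin), self_mem_nhdsWithin] with t ht ht0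
      rw [slope_def_field, zero_smul, hc.zero, hy, sub_zero, div_lt_iff₀ ht0, zero_mul] at ht
      linarith
    obtain ⟨δ, hδ, hδl⟩ := mem_nhdsGT_iff_exists_Ioo_subset.1 hlow
    obtain ⟨hδT, hTs⟩ := exit_spec_of hc hd hv0 hτ1 (show (0 : ℝ) < δ from hδ)
      fun t ht htδ => hδl ⟨ht, htδ⟩
    have hT : 0 < T := lt_of_lt_of_le hδ hδT
    have hreg : fderiv ℝ φ z ≠ 0 := fun h0 => by simp [h0, z] at hout
    set P : ℝ → ℝ := fun t => h (Exp y (t • (v : Space n))) *
      gradLen g φ (Exp y (t • (v : Space n))) * (t ^ (n - 1) * jac g Exp y (t • (v : Space n)))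
      with hP
    have hPc : ContinuousAt P T := by
      have he : ContinuousAt (fun t : ℝ => Exp y (t • (v : Space n))) T :=
        ((hc.smooth_exp_at y).continuous.comp (continuous_id.smul continuous_const)).continuousAt
      exact ((((contDiffAt_reg hd.smooth hh z hreg).continuousAt).comp_of_eq he rfl).mul
        ((gradLen_continuous hg hd.smooth).continuousAt.comp he)).mul
        ((continuous_jac_dir hg hc y).comp
          (continuous_const.prodMk continuous_id : Continuous fun t : ℝ => (v, t))).continuousAt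
    set D := fderiv ℝ φ z (vel Exp y v T)
    have hval : T ^ (n - 1) * jac g Exp y (T • (v : Space n)) * h z /
        cosN g φ z (vel Exp y v T) = P T / D := by
      simp only [hP, cosN, z, D]
      rw [div_div_eq_mul_div]
      ring
    rw [hval]
    refine le_of_forall_lt fun c hcv => ?_
    obtain ⟨c', -, hc1, hc2⟩ := ENNReal.lt_iff_exists_real_btwn.1 hcv
    refine hc1.trans_le ?_
    have hPD : c' < P T / D := (ENNReal.ofReal_lt_ofReal_iff'.1 hc2).1
    rcases le_or_gt c' 0 with hc0 | hc0
    · simp [ENNReal.ofReal_of_nonpos hc0]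
    obtain ⟨ρ, hρ, hρl⟩ := tent_lower hc hd y (v : Space n) hT hTs hout hPc hc0.le
      ((lt_div_iff₀ hout).1 hPD)
    refine le_liminf_of_le (by isBoundedDefault) ?_
    filter_upwards [hr0.eventually (gt_mem_nhds hρ)] with k hk
    have h2 := hρl (r k) (hr k) hk.le
    have key : F k v = ENNReal.ofReal (K k)⁻¹ * ∫⁻ t in Ioi (0 : ℝ),
        ENNReal.ofReal (tent τ (r k) (φ (Exp y (t • (v : Space n)))) * P t) := by
      simp only [hFdef]
      rw [← lintegral_const_mul' _ _ ENNReal.ofReal_ne_top]
      refine lintegral_congr fun t => ?_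
      rw [← ENNReal.ofReal_mul (div_nonneg (hW0 k _) (hK k).le),
        ← ENNReal.ofReal_mul (inv_nonneg.2 (hK k).le)]
      congr 1
      simp only [hW, hP]
      ring
    rw [key]
    calc ENNReal.ofReal c' = ENNReal.ofReal (K k)⁻¹ * ENNReal.ofReal (c' * K k) := by
          rw [← ENNReal.ofReal_mul (inv_nonneg.2 (hK k).le)]
          congr 1
          field_simp [(hK k).ne']
      _ ≤ _ := mul_le_mul_right h2 _
  · have hε' : (0 : ℝ) < ε := hε
    obtain ⟨ρ, hρ, hρa⟩ := Metric.eventually_nhds_iff.1
      (((area_continuous hg hd hw hh).continuousAt (isOpen_Ioo.mem_nhds (abs_lt.1 hτ))).eventually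
        (gt_mem_nhds (show area g φ η τ h < area g φ η τ h + ε by linarith)))
    have hA0 : 0 ≤ area g φ η τ h := area_nonneg hg hd hw hτ hh fun x hx =>
      hh0 x (by rw [hx]; linarith [hw.1])
    rw [← ENNReal.ofReal_coe_nnreal, ← ENNReal.ofReal_add hA0 hε'.le]
    refine liminf_le_of_frequently_le' (Eventually.frequently ?_)
    filter_upwards [hr0.eventually (gt_mem_nhds hρ)] with k hk
    rw [hI k]
    refine ENNReal.ofReal_le_ofReal ?_
    rw [div_le_iff₀ (hK k), mul_comm, ← integral_mul_const]
    refine integral_mono_of_nonneg (ae_of_all _ fun s => ?_) ((hti k).mul_const _)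
      (ae_of_all _ fun s => ?_)
    · rcases eq_or_ne (tent τ (r k) s) 0 with h0 | h0
      · simp [h0]
      · exact mul_nonneg ((tent_props τ (hr k)).2.1 s).1 (area_nonneg hg hd hw (hsup k s h0) hh
          fun x hx => hh0 x (by rw [hx]; linarith [hsup k s h0, hw.1]))
    · rcases eq_or_ne (tent τ (r k) s) 0 with h0 | h0
      · simp [h0]
      · refine mul_le_mul_of_nonneg_left (hρa ?_).le ((tent_props τ (hr k)).2.1 s).1
        rw [Real.dist_eq]
        exact ((tent_props τ (hr k)).2.2.1 s h0).trans hk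

end

end Vale.Agent.P219.Six
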