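import Mathlib
import Vale.Agent.P219.Six.Bridge.Grad
import Vale.Agent.P219.Six.Bridge.Frame

/-!
# Normal charts at every point can be chosen jointly continuous

In curvature at most `κ ≤ 0`, global normal coordinates at every point give exponential maps and
inverses which are smooth in the second variable, with frames continuous in the first, and jointly
continuous.
-/

open MeasureTheory Set Filter Topology
open scoped ENNReal ContDiff RealInnerProductSpace

set_option maxSynthPendingDepth 3

namespace Vale.Agent.P219.Six.Bridge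

open Vale.Agent.P219 Vale.Agent.P219.Univ

noncomputable section

variable {n : ℕ} {g : MetricField n}

/-- Jointly continuous normal charts. -/
theorem exists_continuous_charts (hn : 2 ≤ n) (hg : IsMetric g) {κ : ℝ} (hκ : κ ≤ 0)
    (hs : SecBound g κ) (hc : NormalCharts g) :
    ∃ Exp Log : Space n → Space n → Space n,
      (∀ o, ContDiff ℝ ∞ (Exp o)) ∧ (∀ o, ContDiff ℝ ∞ (Log o)) ∧
      Continuous (fun p : Space n × Space n => Exp p.1 p.2) ∧
      Continuous (fun p : Space n × Space n => Log p.1 p.2) ∧
      Continuous (fun p : Space n × Space n => fderiv ℝ (Exp p.1) 0 p.2) ∧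
      (∀ o u, Log o (Exp o u) = u) ∧ (∀ o x, Exp o (Log o x) = x) ∧ (∀ o, Exp o 0 = o) ∧
      (∀ o u v, g o (fderiv ℝ (Exp o) 0 u) (fderiv ℝ (Exp o) 0 v) = inner ℝ u v) ∧
      ∀ o u (t : ℝ), deriv (deriv fun s : ℝ => Exp o (s • u)) t =
        -gam g (Exp o (t • u)) (deriv (fun s : ℝ => Exp o (s • u)) t)
          (deriv (fun s : ℝ => Exp o (s • u)) t) := by
  choose E F hE hF hFE hEF hE0 hiso hgeo using hc
  have h : Charts g E F κ :=
    ⟨hn, hg, hκ, hs, fun o => ⟨hE o, hE0 o, hiso o, hgeo o⟩, hF, hFE, hEF⟩
  obtain ⟨A, hAc, hA⟩ := exists_frame hg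
  -- the rotation into the continuous frame
  have hL : ∀ x, ∃ L : Space n ≃ₗᵢ[ℝ] Space n, ∀ u, fderiv ℝ (E x) 0 (L u) = A x u := by
    intro x
    set D := fderiv ℝ (E x) 0
    have hinj : Function.Injective (D : Space n →ₗ[ℝ] Space n) := by
      refine (injective_iff_map_eq_zero (D : Space n →ₗ[ℝ] Space n)).2 fun v hv => ?_
      have := hiso x v v
      rw [show fderiv ℝ (E x) 0 v = 0 from hv] at this
      simpa using this.symm
    set De : Space n ≃ₗ[ℝ] Space n := LinearEquiv.ofBijective (D : Space n →ₗ[ℝ] Space n)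
      ⟨hinj, LinearMap.injective_iff_surjective.1 hinj⟩
    set L₀ : Space n →ₗ[ℝ] Space n := De.symm.toLinearMap.comp (A x : Space n →ₗ[ℝ] Space n)
    have hD : ∀ u, D (L₀ u) = A x u := fun u => De.apply_symm_apply (A x u)
    have hi : ∀ u v, inner ℝ (L₀ u) (L₀ v) = inner ℝ u v := fun u v => by
      rw [← hiso x, ← hA x u v]
      simp only [D] at hD
      rw [hD, hD]
    exact ⟨(L₀.isometryOfInner hi).toLinearIsometryEquiv rfl, fun u => by
      simpa using hD u⟩
  choose L hL using hL
  set Lc : Space n → Space n →L[ℝ] Space n := fun x => (L x).toContinuousLinearEquiv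
  obtain ⟨Exp, hExp⟩ : ∃ Exp : Space n → Space n → Space n, Exp = fun x u => E x (L x u) := ⟨_, rfl⟩
  obtain ⟨Log, hLog⟩ : ∃ Log : Space n → Space n → Space n, Log = fun x z => (L x).symm (F x z) :=
    ⟨_, rfl⟩
  have hright : ∀ o x, Exp o (Log o x) = x := fun o x => by simp [hExp, hLog, hEF o x]
  have hleft : ∀ o u, Log o (Exp o u) = u := fun o u => by simp [hExp, hLog, hFE o (L o u)]
  have hD : ∀ o u, fderiv ℝ (Exp o) 0 u = A o u := fun o u => by
    have e : HasFDerivAt (fun u => E o (L o u)) ((fderiv ℝ (E o) 0).comp (Lc o)) 0 := by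
      refine HasFDerivAt.comp (0 : Space n) (g := E o) ?_ (Lc o).hasFDerivAt
      simpa [Lc] using (((hE o).differentiable (by simp)) (0 : Space n)).hasFDerivAt
    rw [hExp, e.fderiv]
    simpa [Lc] using hL o u
  have hlogc : Continuous fun p : Space n × Space n => Log p.1 p.2 := by
    have hi : ∀ i : Fin n, Continuous fun p : Space n × Space n => Log p.1 p.2 i := fun i => by
      have e : ∀ x z, Log x z i = -fderiv ℝ (psi2 F z) x (A x (EuclideanSpace.single i 1)) := by
        intro x z
        rw [dpsi_eq h, neg_neg, ← hL x, hiso]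
        conv_rhs => rw [show F x z = L x (Log x z) by simp [hLog], LinearIsometryEquiv.inner_map_map]
        simp [EuclideanSpace.inner_single_right]
      simp only [e]
      exact (((continuous_dpsi h).comp (continuous_snd.prodMk continuous_fst)).clm_apply
        ((hAc _).comp continuous_fst)).neg
    have := (PiLp.continuous_toLp 2 fun _ : Fin n => ℝ).comp (continuous_pi hi)
    exact this
  have hexpc : Continuous fun p : Space n × Space n => Exp p.1 p.2 := by
    refine continuous_iff_seqContinuous.2 fun p q hp => tendsto_of_subseq_tendsto fun ns hns => ?_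
    have hp' := hp.comp hns
    have hcont : Continuous fun r : Space n × Space n => rr F 0 r.1 + ‖r.2‖ :=
      ((continuous_rr h).comp (continuous_const.prodMk continuous_fst)).add continuous_snd.norm
    obtain ⟨M, hM⟩ := ((hcont.tendsto q).comp hp').bddAbove_range
    set K : Set (Space n) := (E 0) '' Metric.closedBall 0 M
    have hmem : ∀ k, Exp (p (ns k)).1 (p (ns k)).2 ∈ K := fun k => by
      refine ⟨F 0 (Exp (p (ns k)).1 (p (ns k)).2), ?_, hEF 0 _⟩
      rw [mem_closedBall_zero_iff]
      refine le_trans ?_ (hM ⟨k, rfl⟩)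
      refine (rr_triangle h 0 (p (ns k)).1 _).trans (le_of_eq ?_)
      simp [hExp, rr_exp h]
    obtain ⟨z, -, ms, hms, hz⟩ := ((isCompact_closedBall (0 : Space n) M).image (hE 0).continuous
      ).tendsto_subseq hmem
    refine ⟨ms, ?_⟩
    suffices z = Exp q.1 q.2 by rw [← this]; exact hz
    have h1 : Tendsto (fun k => Log (p (ns (ms k))).1 (Exp (p (ns (ms k))).1 (p (ns (ms k))).2))
        atTop (𝓝 (Log q.1 z)) :=
      (hlogc.tendsto (q.1, z)).comp (((continuous_fst.tendsto q).comp
        (hp'.comp hms.tendsto_atTop)).prodMk_nhds hz)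
    simp only [hleft] at h1
    have h2 := (continuous_snd.tendsto q).comp (hp'.comp hms.tendsto_atTop)
    rw [tendsto_nhds_unique h2 h1, hright]
  refine ⟨Exp, Log, fun o => ?_, fun o => ?_, hexpc, hlogc, ?_, hleft, hright, fun o => ?_,
    fun o u v => ?_, fun o u t => ?_⟩
  · rw [hExp]; exact (hE o).comp (Lc o).contDiff
  · rw [hLog]; exact ((L o).symm.toContinuousLinearEquiv : Space n →L[ℝ] Space n).contDiff.comp (hF o)
  · simp only [hD]
    have : Continuous A := continuous_clm_apply.2 hAc
    exact (this.comp continuous_fst).clm_apply continuous_snd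
  · simp [hExp, hE0 o]
  · rw [hD, hD, hA]
  · have e : (fun s : ℝ => Exp o (s • u)) = fun s : ℝ => E o (s • L o u) := by
      funext s; simp [hExp]
    rw [e, show Exp o (t • u) = E o (t • L o u) by simp [hExp]]
    exact hgeo o (L o u) t

end

end Vale.Agent.P219.Six.Bridge
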