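import Vale.Agent.P219.Six.Final
import Vale.Agent.P219.Univ.CoordBridge

/-!
# The six-dimensional inequality for metrics given by their components
-/

open MeasureTheory
open scoped ENNReal ContDiff

namespace Vale.Agent.P219.Coord

open Vale.Agent.P219

noncomputable section

theorem sharp_six {G : Fin 6 → Fin 6 → Space 6 → ℝ} (hG : IsMetric G) (hs : SecLE G 0)
    (hc : NormalCharts G) {φ : Space 6 → ℝ} (hφ : ContDiff ℝ 2 φ)
    (hb : Bornology.IsBounded {x | φ x < 0}) (hr : ∀ x, φ x = 0 → fderiv ℝ φ x ≠ 0) :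
    ENNReal.ofReal (6 * (Real.pi ^ 3 / 6) ^ (1 / 6 : ℝ) * vol G {x | φ x < 0} ^ (5 / 6 : ℝ)) ≤
      per G {x | φ x < 0} := by
  have hv : vol G {x | φ x < 0} = Univ.gVol (toField G) {x | φ x < 0} := by
    rw [vol, Univ.gVol, dens_eq]
  rw [hv, per_eq hG]
  exact Six.cartan_hadamard_six (isMetric hG) (normalCharts hG hc) (secBound hG hs) hφ hb hr

end

end Vale.Agent.P219.Coord
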