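import Vale.Agent.P219.Six.Switch
import Vale.Agent.P219.Six.Near
import Vale.Agent.P219.Six.Bridge.Smooth

/-!
# The sharp isoperimetric inequality on six-dimensional Cartan-Hadamard manifolds
-/

open MeasureTheory Set Filter Topology
open scoped ENNReal ContDiff RealInnerProductSpace

namespace Vale.Agent.P219.Six

open Vale.Agent.P219 Vale.Agent.P219.Univ Vale.Agent.P219.Six.Surf

noncomputable section

variable {g : MetricField 6} {Ex Lo : Space 6 → Space 6 → Space 6} {φ : Space 6 → ℝ}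

/-- A defining function can be normalised at infinity without changing the domain. -/
theorem exists_defining (hφ : ContDiff ℝ 2 φ) (hb : Bornology.IsBounded (sub φ 0))
    (hr : ∀ x, φ x = 0 → fderiv ℝ φ x ≠ 0) :
    ∃ ψ : Space 6 → ℝ, Defining ψ ∧ sub ψ 0 = sub φ 0 := by
  have hz : {x | φ x = 0} ⊆ closure (sub φ 0) := by
    intro x hx
    by_contra hcl
    have hev : ∀ᶠ y in 𝓝 x, 0 ≤ φ y := by
      filter_upwards [isClosed_closure.isOpen_compl.mem_nhds hcl] with y hy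
      exact not_lt.1 fun h => hy (subset_closure h)
    have hmin : IsLocalMin φ x := by
      filter_upwards [hev] with y hy
      rw [show φ x = 0 from hx]
      exact hy
    exact hr x hx hmin.fderiv_eq_zero
  obtain ⟨R, hR⟩ := hb.closure.subset_closedBall (0 : Space 6)
  set ρ := max R 0 + 1 with hρ
  have hρ0 : 0 < ρ := by rw [hρ]; linarith [le_max_right R 0]
  let b : ContDiffBump (0 : Space 6) := ⟨ρ, ρ + 1, hρ0, by linarith⟩
  set ψ : Space 6 → ℝ := fun x => b x * φ x + (1 - b x) with hψ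
  have hin : ∀ x ∈ closure (sub φ 0), ψ =ᶠ[𝓝 x] φ := fun x hx => by
    have hx' : x ∈ Metric.ball (0 : Space 6) ρ := by
      have := hR hx
      rw [Metric.mem_closedBall] at this
      rw [Metric.mem_ball, hρ]
      linarith [le_max_left R 0]
    filter_upwards [b.eventuallyEq_one_of_mem_ball hx'] with y hy
    simp [hψ, hy]
  have hout : ∀ x, x ∉ closure (sub φ 0) → 0 < ψ x := fun x hx => by
    have h0 : 0 ≤ φ x := not_lt.1 fun h => hx (subset_closure h)
    have h1 : φ x ≠ 0 := fun h => hx (hz h)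
    have h2 : 0 < φ x := lt_of_le_of_ne h0 (Ne.symm h1)
    have h3 := b.nonneg (x := x)
    have h4 := b.le_one (x := x)
    simp only [hψ]
    rcases h3.eq_or_lt with h | h
    · rw [← h]; norm_num
    · have := mul_pos h h2
      linarith
  refine ⟨ψ, ⟨?_, ⟨ρ + 1, fun x hx => ?_⟩, fun x hx => ?_⟩, ?_⟩
  · exact (b.contDiff.mul hφ).add (contDiff_const.sub b.contDiff)
  · have : b x = 0 := b.zero_of_le_dist (by rwa [dist_zero_right])
    simp [hψ, this]
  · by_cases hcl : x ∈ closure (sub φ 0)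
    · rw [(hin x hcl).fderiv_eq]
      exact hr x ((hin x hcl).self_of_nhds ▸ hx)
    · exact absurd hx (hout x hcl).ne'
  · ext x
    simp only [sub, Set.mem_ofPred_eq]
    by_cases hcl : x ∈ closure (sub φ 0)
    · rw [(hin x hcl).self_of_nhds]
    · exact iff_of_false (not_lt.2 (hout x hcl).le) fun h => hcl (subset_closure h)

theorem kernel_area (hg : IsMetric g) (hc : JointCharts g Ex Lo) {η τ : ℝ} (hd : Defining φ)
    (hw : RegWindow φ η) (hτ : |τ| < η / 2) {l ε : ℝ} (hε : 0 < ε) (a : Space 6) :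
    area g φ η τ (kernel g Lo φ l ε a) = area g φ η τ (fun _ => 1) + 10 / 17 / l ^ 2 *
      area g φ η τ (fun z => beta (5 * l) ε (2 * psi Lo a z)
        (fderiv ℝ (psi Lo a) z (unitN g φ z))) := by
  have hτ1 := (lt_one_of_window hw hτ).le
  set b := fun z => beta (5 * l) ε (2 * psi Lo a z) (fderiv ℝ (psi Lo a) z (unitN g φ z))
  have hk := kernel_contDiffOn (l := l) hg hc hd hε a
  rcases eq_or_ne l 0 with hl | hl
  · subst hl
    have e : kernel g Lo φ 0 ε a = fun _ => (1 : ℝ) := funext fun z => by simp [kernel, Reps]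
    rw [e]
    simp
  have hb : ContDiffOn ℝ 1 b (regSet φ) := by
    refine ((hk.sub (contDiffOn_const (c := (1 : ℝ)))).div_const (10 / 17 / l ^ 2)).congr
      fun z _ => ?_
    simp only [b, kernel, Reps]
    field_simp
    ring
  rw [← area_smul hg hd hw hb, ← area_add hg hd hw hτ1 contDiffOn_const (contDiffOn_const.mul hb)]
  rfl

/-- The final arithmetic. -/
theorem algebra {c u l P Q ε e L : ℝ} (hu : 0 < u) (hl : l = c * u⁻¹ / 6)
    (hQ : Q = (c / 6) ^ 6) (hP0 : 0 ≤ P) (hP : P ≤ c * u ^ 5) (hl0 : 0 < l) (hlL : l ≤ L)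
    (he : 0 ≤ e)
    (hsw : Real.pi ^ 3 * (l * u ^ 6) ≤ P * (alpha * l ^ 5 * (P + e + 10 / 17 / l ^ 2 * e) +
      2 * (43 * Real.pi ^ 3 / 720) + Real.pi ^ 3 * (l * Real.sqrt ε))) :
    17 * Real.pi ^ 3 / 60 - 17 / 10 * Q ≤
      6 * (e * (alpha * (L ^ 5 + 10 / 17 * L ^ 3)) + Real.pi ^ 3 * (L * Real.sqrt ε)) := by
  have hc0 : 0 < c := by
    have : c = 6 * l * u := by rw [hl]; field_simp
    rw [this]; positivity
  have hQu : l ^ 6 * u ^ 6 = Q := by rw [hl, hQ]; field_simp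
  have hQ0 : 0 < Q := by rw [hQ]; positivity
  have h6 : l ^ 5 * (c * u ^ 5) = 6 * Q := by rw [hl, hQ]; field_simp
  set P' := l ^ 5 * P
  have hP' : P' ≤ 6 * Q := h6 ▸ mul_le_mul_of_nonneg_left hP (by positivity)
  have hP'0 : 0 ≤ P' := by positivity
  set err := e * (alpha * (L ^ 5 + 10 / 17 * L ^ 3)) + Real.pi ^ 3 * (L * Real.sqrt ε)
  have hα : (0 : ℝ) ≤ alpha := by unfold alpha; norm_num
  have h1 : alpha * l ^ 5 * (P + e + 10 / 17 / l ^ 2 * e) + 2 * (43 * Real.pi ^ 3 / 720) +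
      Real.pi ^ 3 * (l * Real.sqrt ε) ≤ alpha * (6 * Q) + 43 * Real.pi ^ 3 / 360 + err := by
    have e1 : alpha * l ^ 5 * (P + e + 10 / 17 / l ^ 2 * e) =
        alpha * P' + e * (alpha * (l ^ 5 + 10 / 17 * l ^ 3)) := by
      simp only [P']; field_simp; ring
    have e2 : e * (alpha * (l ^ 5 + 10 / 17 * l ^ 3)) ≤
        e * (alpha * (L ^ 5 + 10 / 17 * L ^ 3)) := by gcongr
    have e3 : Real.pi ^ 3 * (l * Real.sqrt ε) ≤ Real.pi ^ 3 * (L * Real.sqrt ε) := by gcongr
    have e4 := mul_le_mul_of_nonneg_left hP' hα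
    rw [e1]
    simp only [err]
    linarith
  have h2 : Real.pi ^ 3 * Q ≤ 6 * Q * (alpha * (6 * Q) + 43 * Real.pi ^ 3 / 360 + err) := by
    have h3 := mul_le_mul_of_nonneg_left hsw (pow_nonneg hl0.le 5)
    rw [show l ^ 5 * (Real.pi ^ 3 * (l * u ^ 6)) = Real.pi ^ 3 * (l ^ 6 * u ^ 6) by ring, hQu,
      ← mul_assoc (l ^ 5) P] at h3
    have herr : 0 ≤ err := by
      have : 0 ≤ L := hl0.le.trans hlL
      simp only [err]
      positivity
    refine h3.trans ((mul_le_mul_of_nonneg_left h1 hP'0).trans ?_)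
    exact mul_le_mul_of_nonneg_right hP' (by positivity)
  have h4 : Real.pi ^ 3 ≤ 6 * (alpha * (6 * Q) + 43 * Real.pi ^ 3 / 360 + err) := by
    rw [show 6 * Q * (alpha * (6 * Q) + 43 * Real.pi ^ 3 / 360 + err) =
      6 * (alpha * (6 * Q) + 43 * Real.pi ^ 3 / 360 + err) * Q by ring] at h2
    exact le_of_mul_le_mul_right h2 hQ0
  simp only [alpha] at h4
  linarith

/-- The sharp inequality in jointly smooth normal coordinates. -/
theorem sharp_six (hg : IsMetric g) (hc : JointCharts g Ex Lo) (hs : SecBound g 0)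
    (hd : Defining φ) :
    ENNReal.ofReal (6 * (Real.pi ^ 3 / 6) ^ (1 / 6 : ℝ) * Univ.gVol g (sub φ 0) ^ (5 / 6 : ℝ)) ≤
      Univ.gPer g (sub φ 0) := by
  by_contra hcon
  rw [not_le] at hcon
  have hfin : Univ.gPer g (sub φ 0) ≠ ⊤ := hcon.ne_top
  have hV : ∀ E, 0 ≤ Univ.gVol g E := fun E => integral_nonneg fun x => (dens_pos hg x).le
  set S := (Real.pi ^ 3 / 6) ^ (1 / 6 : ℝ) with hS
  have hS6 : S ^ 6 = Real.pi ^ 3 / 6 := by
    rw [hS, ← Real.rpow_natCast, ← Real.rpow_mul (by positivity)]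
    norm_num
  set W := Univ.gVol g (sub φ 0) ^ (5 / 6 : ℝ)
  set P₀ := (Univ.gPer g (sub φ 0)).toReal
  have hP0 : P₀ < 6 * S * W := (ENNReal.lt_ofReal_iff_toReal_lt hfin).1 hcon
  have hP00 : 0 ≤ P₀ := ENNReal.toReal_nonneg
  have hWnn : 0 ≤ W := Real.rpow_nonneg (hV _) _
  have hW : 0 < W := by
    rcases hWnn.eq_or_lt with h | h
    · rw [← h, mul_zero] at hP0; linarith
    · exact h
  set c := (P₀ / W + 6 * S) / 2 with hc_def
  have hPW : P₀ / W < 6 * S := (div_lt_iff₀ hW).2 hP0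
  have hcS : c < 6 * S := by rw [hc_def]; linarith
  have hc0 : 0 < c := by
    rw [hc_def]
    have : 0 ≤ P₀ / W := by positivity
    have : 0 < 6 * S := by rw [hS]; positivity
    linarith
  have hneg : deficit g c (sub φ 0) < 0 := by
    have h1 : P₀ / W * W < c * W := mul_lt_mul_of_pos_right (by rw [hc_def]; linarith) hW
    rw [div_mul_cancel₀ _ hW.ne'] at h1
    unfold deficit
    linarith
  obtain ⟨m, Vmax, hm, hnear⟩ := near hg hc hs hc0 hd hneg
  set Q := (c / 6) ^ 6 with hQ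
  have hQS : Q < Real.pi ^ 3 / 6 := by
    rw [hQ, ← hS6]
    exact pow_lt_pow_left₀ (by linarith) (by positivity) (by norm_num)
  set γ := 17 * Real.pi ^ 3 / 60 - 17 / 10 * Q with hγ
  have hγ0 : 0 < γ := by rw [hγ]; linarith
  set u₀ := (m / c) ^ (1 / 5 : ℝ) with hu0
  have hu00 : 0 < u₀ := by rw [hu0]; positivity
  set L := c * u₀⁻¹ / 6 with hL
  have hL0 : 0 < L := by rw [hL]; positivity
  set A := alpha * (L ^ 5 + 10 / 17 * L ^ 3) with hA
  have hA0 : 0 ≤ A := by rw [hA]; unfold alpha; positivity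
  set e := γ / (24 * (A + 1)) with he
  have he0 : 0 < e := by rw [he]; positivity
  set ε := (γ / (24 * (Real.pi ^ 3 * L + 1))) ^ 2 with hε
  have hε0 : 0 < ε := by rw [hε]; positivity
  obtain ⟨ψ, η, hψ, hw, hdef, -, hbeta⟩ := hnear ε e hε0 he0
  have h0 : |(0 : ℝ)| < η / 2 := by rw [abs_zero]; linarith [hw.1]
  obtain ⟨hA1, hper⟩ := gPer_sub hg hψ hw h0
  set V := Univ.gVol g (sub ψ 0)
  set P := area g ψ η 0 (fun _ => 1)
  set u := V ^ (1 / 6 : ℝ) with hu_def
  have hu5 : V ^ (5 / 6 : ℝ) = u ^ 5 := by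
    rw [hu_def, ← Real.rpow_natCast, ← Real.rpow_mul (hV _)]; norm_num <;> rfl
  have hu6 : V = u ^ 6 := by
    rw [hu_def, ← Real.rpow_natCast, ← Real.rpow_mul (hV _)]; norm_num <;> rfl
  have hcu : m + P ≤ c * u ^ 5 := by
    have h1 := hdef
    unfold deficit at h1
    rw [hper, ENNReal.toReal_ofReal hA1, hu5] at h1
    linarith
  have hunn : 0 ≤ u := Real.rpow_nonneg (hV _) _
  have hu : u₀ ≤ u := by
    rw [hu0, ← Real.pow_rpow_inv_natCast hunn (show (5 : ℕ) ≠ 0 by norm_num)]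
    norm_num
    exact Real.rpow_le_rpow (by positivity) ((div_le_iff₀ hc0).2 (by linarith)) (by norm_num)
  have hupos : 0 < u := hu00.trans_le hu
  set l := c * u⁻¹ / 6 with hl
  have hl0 : 0 < l := by rw [hl]; positivity
  have hlL : l ≤ L := by rw [hl, hL]; gcongr
  have hl' : c * V ^ (-(1 / 6) : ℝ) / 6 = l := by
    rw [hl, hu_def, Real.rpow_neg (hV _)]
  set B := P + e + 10 / 17 / l ^ 2 * e with hB
  have hB0 : 0 ≤ B := by rw [hB]; positivity
  have hone : ContDiffOn ℝ 1 (fun _ : Space 6 => (1 : ℝ)) (regSet ψ) := contDiffOn_const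
  have hev : ∀ᶠ τ in 𝓝[<] (0 : ℝ), ∀ a, ψ a = τ →
      area g ψ η τ (kernel g Lo ψ l ε a) ≤ B := by
    have hcont : ContinuousAt (fun τ => area g ψ η τ (fun _ => 1)) 0 :=
      (area_continuous hg hψ hw hone).continuousAt
        (isOpen_Ioo.mem_nhds ⟨by linarith [hw.1], by linarith [hw.1]⟩)
    have h1 : ∀ᶠ τ in 𝓝 (0 : ℝ), area g ψ η τ (fun _ => 1) < P + e :=
      hcont.eventually_lt_const (show area g ψ η 0 (fun _ => 1) < P + e by linarith)
    filter_upwards [nhdsWithin_le_nhds h1,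
      Ioo_mem_nhdsLT (show -(η / 2) < 0 by linarith [hw.1])] with τ hτ1 hτ2 a ha
    have hb := hbeta τ hτ2 a ha
    rw [hl'] at hb
    rw [kernel_area hg hc hψ hw (abs_lt.2 ⟨hτ2.1, by linarith [hτ2.2, hw.1]⟩) hε0 a, hB]
    exact add_le_add hτ1.le (mul_le_mul_of_nonneg_left hb (by positivity))
  have hsw := switch hg hc hs hψ hw hl0 hε0 hB0 hev
  rw [show Univ.gVol g (sub ψ 0) = u ^ 6 from hu6, hB] at hsw
  have hfinal := algebra (Q := Q) (L := L) hupos hl hQ hA1 (by linarith) hl0 hlL he0.le hsw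
  have hsq : Real.sqrt ε = γ / (24 * (Real.pi ^ 3 * L + 1)) := by
    rw [hε, Real.sqrt_sq (by positivity)]
  have h1 : e * A ≤ γ / 24 := by
    rw [he, div_mul_eq_mul_div, div_le_iff₀ (by positivity)]
    linarith
  have h2 : Real.pi ^ 3 * (L * Real.sqrt ε) ≤ γ / 24 := by
    rw [hsq, ← mul_assoc, ← mul_div_assoc, div_le_iff₀ (by positivity)]
    linarith
  rw [hA] at h1
  linarith

/-- The sharp isoperimetric inequality in dimension six, for smooth bounded domains in metrics of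
nonpositive curvature with global normal coordinates at every point. -/
theorem cartan_hadamard_six (hg : IsMetric g) (hn : NormalCharts g) (hs : SecBound g 0)
    (hφ : ContDiff ℝ 2 φ) (hb : Bornology.IsBounded (sub φ 0))
    (hr : ∀ x, φ x = 0 → fderiv ℝ φ x ≠ 0) :
    ENNReal.ofReal (6 * (Real.pi ^ 3 / 6) ^ (1 / 6 : ℝ) * Univ.gVol g (sub φ 0) ^ (5 / 6 : ℝ)) ≤
      Univ.gPer g (sub φ 0) := by
  obtain ⟨Ex, Lo, hc⟩ := Bridge.exists_jointCharts hg hn
  obtain ⟨ψ, hd, hsub⟩ := exists_defining hφ hb hr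
  rw [← hsub]
  exact sharp_six hg hc hs hd

end

end Vale.Agent.P219.Six
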