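import Vale.Agent.P219.Six.Switch.Line

/-!
# Switching the order of integration: volume against boundary
-/

open MeasureTheory Set Filter Topology
open scoped ENNReal ContDiff RealInnerProductSpace

namespace Vale.Agent.P219.Six

open Vale.Agent.P219 Vale.Agent.P219.Univ Vale.Agent.P219.Six.Surf

noncomputable section

variable {g : MetricField 6} {Ex Lo : Space 6 → Space 6 → Space 6} {φ : Space 6 → ℝ} {η : ℝ}

theorem sphere_norm (w : Metric.sphere (0 : Space 6) 1) : ‖(w : Space 6)‖ = 1 :=
  mem_sphere_zero_iff_norm.1 w.2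

/-- The bound at one boundary point. -/
theorem point_le (hg : IsMetric g) (hc : JointCharts g Ex Lo) (hs : SecBound g 0) (hd : Defining φ)
    (hw : RegWindow φ η) {k : ℝ → ℝ} (hk0 : ∀ s, 0 ≤ k s)
    (hks : ∀ s, k s ≠ 0 → s ∈ Ioo (-(η / 2)) 0) {l ε B : ℝ} (hl : 0 < l) (hε : 0 < ε)
    (hB : ∀ τ, k τ ≠ 0 → ∀ a, φ a = τ → area g φ η τ (kernel g Lo φ l ε a) ≤ B)
    (hB0 : 0 ≤ B) (y : Space 6) :
    ∫⁻ w, chordVal g Ex φ k l ε y w * ENNReal.ofReal (exitT Ex φ (φ y) y w) ∂dirs 6 ≤
      ENNReal.ofReal (k (φ y) * gradLen g φ y * (alpha * l ^ 5 * B / 2 + 43 * Real.pi ^ 3 / 720 +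
        Real.pi ^ 3 * (l * Real.sqrt ε / 4))) := by
  refine (lintegral_mono fun w : Metric.sphere (0 : Space 6) 1 =>
    chordVal_le hg hc hs hk0 hl hε y (w : Space 6) (sphere_norm w)).trans ?_
  rcases eq_or_ne (k (φ y)) 0 with h0 | h0
  · simp [h0]
  have hyI := hks _ h0
  have hyw : |φ y| < η / 2 := abs_lt.2 ⟨hyI.1, by linarith [hyI.2, hw.1]⟩
  have hyr := window_reg hw hyw rfl
  have hgl := gradLen_pos hg hyr
  set e : Space 6 := -fderiv ℝ (Lo y) y (unitN g φ y)
  have he : ‖e‖ = 1 := by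
    have h1 := hc.metric_eq y (unitN g φ y) (unitN g φ y)
    rw [real_inner_self_eq_norm_sq, ← gNorm_sq hg, gNorm_unitN hg hyr] at h1
    rw [norm_neg]
    exact (pow_left_inj₀ (norm_nonneg _) zero_le_one two_ne_zero).1 h1.symm
  have hci : ∀ w : Space 6, cosIn g Ex φ y w = ⟪w, e⟫ := fun w => by
    rw [cosIn, ← cosN_eq hg hyr, vel, zero_smul, hc.metric_eq, inner_neg_right]
    have h2 := hc.dLog_dExp y 0 w
    rw [hc.zero] at h2
    rw [h2]
  set G : Metric.sphere (0 : Space 6) 1 → ℝ := fun w =>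
    if 0 < ⟪(w : Space 6), e⟫ then gFun ⟪(w : Space 6), e⟫ * ⟪(w : Space 6), e⟫ else 0
  have hGc : Continuous G := by
    have e1 : G = fun w : Metric.sphere (0 : Space 6) 1 =>
        gFun (max ⟪(w : Space 6), e⟫ 0) * max ⟪(w : Space 6), e⟫ 0 := funext fun w => by
      simp only [G]
      split_ifs with h
      · rw [max_eq_left h.le]
      · rw [max_eq_right (not_lt.1 h), mul_zero]
    rw [e1]
    unfold gFun
    fun_prop
  have hG0 : ∀ w, 0 ≤ G w := fun w => by
    simp only [G]
    split_ifs with h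
    · unfold gFun; positivity
    · exact le_rfl
  have hGi : ∫⁻ w, ENNReal.ofReal (G w) ∂dirs 6 = ENNReal.ofReal (43 * Real.pi ^ 3 / 720) := by
    rw [← ofReal_integral_eq_lintegral_ofReal
      (hGc.integrable_of_hasCompactSupport (HasCompactSupport.of_compactSpace _))
      (ae_of_all _ hG0), moments.2 e he]
  have harea := exit_area hg hc hd hw hyw (y := y) rfl (kernel_contDiffOn hg hc hd hε y (l := l))
    (fun z _ => kernel_nonneg hg hc hl hε y z)
  have hBy := hB _ h0 y rfl
  simp only [hci]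
  rw [lintegral_const_mul' _ _ ENNReal.ofReal_ne_top, lintegral_add_left
    (show Measurable fun w => ENNReal.ofReal (G w) from hGc.measurable.ennreal_ofReal),
    hGi, lintegral_add_left measurable_const, lintegral_const, moments.1,
    lintegral_const_mul' _ _ ENNReal.ofReal_ne_top, ← ENNReal.ofReal_mul (by positivity),
    ENNReal.ofReal_mul (mul_nonneg (hk0 _) hgl.le)]
  refine mul_le_mul' le_rfl ?_
  have hα : 0 ≤ alpha * l ^ 5 / 2 := by unfold alpha; positivity
  refine (add_le_add le_rfl (add_le_add le_rfl (mul_le_mul' le_rfl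
    (d := ENNReal.ofReal B) ?_))).trans (le_of_eq ?_)
  · refine le_trans (le_of_eq ?_) (harea.trans (ENNReal.ofReal_le_ofReal hBy))
    refine lintegral_congr fun w => ?_
    rw [Set.indicator_apply]
    exact if_congr Iff.rfl rfl rfl
  · rw [← ENNReal.ofReal_mul hα, ← ENNReal.ofReal_add (by positivity) (mul_nonneg hα hB0),
      ← ENNReal.ofReal_add (by positivity) (by positivity)]
    exact congrArg ENNReal.ofReal (by ring)

/-- The chords through one point, by exit times and polar coordinates. -/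
theorem chords_le (hg : IsMetric g) (hc : JointCharts g Ex Lo) (hs : SecBound g 0) (hd : Defining φ)
    (hw : RegWindow φ η) {k : ℝ → ℝ} (hk : Continuous k) (hk1 : ∀ s, k s ≠ 0 → |s| < η / 2)
    {l ε : ℝ} (hl : 0 < l) (hε : 0 < ε) (x : Space 6) (hPr : Measurable (pairFn g Ex Lo φ k l ε x)) :
    (∫⁻ s in Ioo (φ x) 1, ENNReal.ofReal (k s)) * ENNReal.ofReal (Real.pi ^ 3 * l) ≤
      2 * ∫⁻ y, pairFn g Ex Lo φ k l ε x y * ENNReal.ofReal (dens g y) := by
  set F : Metric.sphere (0 : Space 6) 1 → ℝ≥0∞ := fun v => ∫⁻ s in Ioo (φ x) 1,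
    ENNReal.ofReal (k s) * half g Ex φ l ε s (exitT Ex φ s x v) x v with hF
  have hkm : Measurable fun s => ENNReal.ofReal (k s) := hk.measurable.ennreal_ofReal
  have hjoint : Measurable fun p : Metric.sphere (0 : Space 6) 1 × ℝ =>
      ENNReal.ofReal (k p.2) * half g Ex φ l ε p.2 (exitT Ex φ p.2 x p.1) x p.1 := by
    have hv : Measurable fun p : Metric.sphere (0 : Space 6) 1 × ℝ => (p.1 : Space 6) :=
      measurable_subtype_coe.comp measurable_fst
    have he := measurable_exit_comp hg hc hd (xf := fun _ : Metric.sphere (0 : Space 6) 1 × ℝ => x)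
      (sf := fun p : Metric.sphere (0 : Space 6) 1 × ℝ => p.2) measurable_const hv measurable_snd
    exact (hkm.comp measurable_snd).mul
      (measurable_half hg hc hd measurable_const hv measurable_snd he l ε)
  have hFm : Measurable F := hjoint.lintegral_prod_right'
  have h1 : (∫⁻ s in Ioo (φ x) 1, ENNReal.ofReal (k s)) * ENNReal.ofReal (Real.pi ^ 3 * l) ≤
      ∫⁻ v, (F v + F (-v)) ∂dirs 6 := by
    calc _ = ∫⁻ _v, (∫⁻ s in Ioo (φ x) 1, ENNReal.ofReal (k s) * ENNReal.ofReal l) ∂dirs 6 := by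
          rw [lintegral_const, moments.1, lintegral_mul_const _ hkm, mul_comm (Real.pi ^ 3),
            ENNReal.ofReal_mul hl.le, mul_assoc]
      _ ≤ _ := lintegral_mono fun v => by
          rw [hF]
          dsimp only
          rw [coe_neg_sphere, ← lintegral_add_left
            (show Measurable fun s => ENNReal.ofReal (k s) * half g Ex φ l ε s (exitT Ex φ s x v) x v
              from hjoint.comp measurable_prodMk_left)]
          refine lintegral_mono_ae ?_
          rw [ae_restrict_iff' measurableSet_Ioo]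
          exact chord_ae hg hc hd hw hk1 hl hε x v (sphere_norm v)
  have h2 : ∀ v : Metric.sphere (0 : Space 6) 1, F v ≤ ∫⁻ t in Ioi (0 : ℝ),
      pairFn g Ex Lo φ k l ε x (Ex x (t • (v : Space 6))) *
        ENNReal.ofReal (t ^ 5 * jac g Ex x (t • (v : Space 6))) := by
    intro v
    have hv0 : (v : Space 6) ≠ 0 := ne_zero_of_mem_unit_sphere v
    refine (exit_change hc hd x v hv0
      fun s t => ENNReal.ofReal (k s) * half g Ex φ l ε s t x v).le.trans ?_
    set S := {t : ℝ | 0 < t ∧ φ x < φ (Ex x (t • (v : Space 6))) ∧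
      φ (Ex x (t • (v : Space 6))) < 1 ∧
      exitT Ex φ (φ (Ex x (t • (v : Space 6)))) x v = t}
    have hp : Measurable fun t : ℝ => φ (Ex x (t • (v : Space 6))) :=
      (hd.smooth.continuous.comp ((hc.smooth_exp_at x).continuous.comp
        (continuous_id.smul continuous_const))).measurable
    have hS : MeasurableSet S := (measurableSet_lt measurable_const measurable_id).inter
      ((measurableSet_lt measurable_const hp).inter ((measurableSet_lt hp measurable_const).inter
        (measurableSet_eq_fun (measurable_exit_comp hg hc hd measurable_const measurable_const hp)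
          measurable_id)))
    rw [← lintegral_indicator hS, ← lintegral_indicator measurableSet_Ioi]
    refine lintegral_mono fun t => ?_
    by_cases ht : t ∈ S
    · rw [indicator_of_mem ht, indicator_of_mem (show t ∈ Ioi (0 : ℝ) from ht.1)]
      have hn : ‖t • (v : Space 6)‖ = t := by
        rw [norm_smul, sphere_norm, mul_one, Real.norm_of_nonneg ht.1.le]
      have hJ : 0 < t ^ 5 * jac g Ex x (t • (v : Space 6)) :=
        mul_pos (pow_pos ht.1 5) (jac_pos hg hc hs x _)
      simp only [pairFn, hc.left, hn, smul_smul, inv_mul_cancel₀ ht.1.ne', one_smul]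
      rw [ENNReal.div_mul_cancel (ENNReal.ofReal_pos.2 hJ).ne' ENNReal.ofReal_ne_top, ray]
      exact le_of_eq (if_pos ht).symm
    · rw [indicator_of_notMem ht]; exact zero_le
  calc _ ≤ ∫⁻ v, (F v + F (-v)) ∂dirs 6 := h1
    _ = 2 * ∫⁻ v, F v ∂dirs 6 := by
        rw [lintegral_add_left hFm, dirs_neg.lintegral_comp hFm, two_mul]
    _ ≤ _ := by
        rw [polar hc x hPr]
        exact mul_le_mul' le_rfl (lintegral_mono h2)

/-- The weighted forms of volume and boundary. -/
theorem weighted (hg : IsMetric g) (hc : JointCharts g Ex Lo) (hs : SecBound g 0) (hd : Defining φ)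
    (hw : RegWindow φ η) {k : ℝ → ℝ} (hk : Continuous k) (hk0 : ∀ s, 0 ≤ k s)
    (hks : ∀ s, k s ≠ 0 → s ∈ Ioo (-(η / 2)) 0) {l ε B : ℝ} (hl : 0 < l) (hε : 0 < ε)
    (hB : ∀ τ, k τ ≠ 0 → ∀ a, φ a = τ → area g φ η τ (kernel g Lo φ l ε a) ≤ B)
    (hB0 : 0 ≤ B) :
    ∫⁻ x, (∫⁻ s in Ioo (φ x) 1, ENNReal.ofReal (k s)) *
        ENNReal.ofReal (Real.pi ^ 3 * l) * ENNReal.ofReal (dens g x) ≤
      2 * ∫⁻ y, ENNReal.ofReal (k (φ y) * gradLen g φ y * (alpha * l ^ 5 * B / 2 +
        43 * Real.pi ^ 3 / 720 + Real.pi ^ 3 * (l * Real.sqrt ε / 4))) *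
          ENNReal.ofReal (dens g y) := by
  have hk1 : ∀ s, k s ≠ 0 → |s| < η / 2 := fun s h =>
    abs_lt.2 ⟨(hks s h).1, by linarith [(hks s h).2, hw.1]⟩
  have hPm' := measurable_pairFn hg hc hd hk l ε
  generalize hP : pairFn g Ex Lo φ k l ε = P at hPm'
  have hPm : Measurable fun p : Space 6 × Space 6 => P p.1 p.2 := hPm'
  have hPr : ∀ x, Measurable (P x) := fun x => hPm.comp measurable_prodMk_left
  have hdens : Measurable fun x => ENNReal.ofReal (dens g x) :=
    (contDiff_dens hg).continuous.measurable.ennreal_ofReal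
  have hx : ∀ x, (∫⁻ s in Ioo (φ x) 1, ENNReal.ofReal (k s)) * ENNReal.ofReal (Real.pi ^ 3 * l) ≤
      2 * ∫⁻ y, P x y * ENNReal.ofReal (dens g y) := fun x =>
    by subst hP; exact chords_le hg hc hs hd hw hk hk1 hl hε x (hPr x)
  calc ∫⁻ x, (∫⁻ s in Ioo (φ x) 1, ENNReal.ofReal (k s)) *
          ENNReal.ofReal (Real.pi ^ 3 * l) * ENNReal.ofReal (dens g x)
      ≤ ∫⁻ x, (2 * ∫⁻ y, P x y * ENNReal.ofReal (dens g y)) * ENNReal.ofReal (dens g x) :=
        lintegral_mono fun x => mul_le_mul' (hx x) le_rfl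
    _ = 2 * ∫⁻ x, ∫⁻ y, P x y * ENNReal.ofReal (dens g y) * ENNReal.ofReal (dens g x) := by
        rw [← lintegral_const_mul' _ _ ENNReal.ofNat_ne_top]
        refine lintegral_congr fun x => ?_
        rw [lintegral_mul_const _ ((hPr x).fun_mul hdens), mul_assoc]
    _ = 2 * ∫⁻ y, ∫⁻ x, P x y * ENNReal.ofReal (dens g y) * ENNReal.ofReal (dens g x) := by
        rw [lintegral_lintegral_swap]
        exact ((hPm.mul (hdens.comp measurable_snd)).mul (hdens.comp measurable_fst)).aemeasurable
    _ ≤ _ := mul_le_mul' le_rfl (lintegral_mono fun y => by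
        have hPl : Measurable fun x => P x y := hPm.comp measurable_prodMk_right
        calc ∫⁻ x, P x y * ENNReal.ofReal (dens g y) * ENNReal.ofReal (dens g x)
            = (∫⁻ x, P x y * ENNReal.ofReal (dens g x)) * ENNReal.ofReal (dens g y) := by
              rw [← lintegral_mul_const _ (hPl.fun_mul hdens)]
              exact lintegral_congr fun x => mul_right_comm _ _ _
          _ ≤ _ := by
              rw [polar hc y hPl]
              subst hP
              exact mul_le_mul' ((lintegral_mono fun w : Metric.sphere (0 : Space 6) 1 =>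
                line_le hg hc hs hd hk0 y (w : Space 6) (sphere_norm w)).trans
                  (point_le hg hc hs hd hw hk0 hks hl hε hB hB0 y)) le_rfl)

/-- Volume is controlled by the boundary and the kernel. -/
theorem switch (hg : IsMetric g) (hc : JointCharts g Ex Lo) (hs : SecBound g 0) (hd : Defining φ)
    (hw : RegWindow φ η) {l ε B : ℝ} (hl : 0 < l) (hε : 0 < ε) (hB0 : 0 ≤ B)
    (hB : ∀ᶠ τ in 𝓝[<] (0 : ℝ), ∀ a, φ a = τ → area g φ η τ (kernel g Lo φ l ε a) ≤ B) :
    Real.pi ^ 3 * (l * Univ.gVol g (sub φ 0)) ≤ area g φ η 0 (fun _ => 1) *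
      (alpha * l ^ 5 * B + 2 * (43 * Real.pi ^ 3 / 720) + Real.pi ^ 3 * (l * Real.sqrt ε)) := by
  set C := alpha * l ^ 5 * B / 2 + 43 * Real.pi ^ 3 / 720 + Real.pi ^ 3 * (l * Real.sqrt ε / 4)
  have hC : 0 ≤ C := by simp only [C, alpha]; positivity
  have h0I : (0 : ℝ) ∈ Ioo (-(η / 2)) (η / 2) := ⟨by linarith [hw.1], by linarith [hw.1]⟩
  have hone : ContDiffOn ℝ 1 (fun _ : Space 6 => (1 : ℝ)) (regSet φ) := contDiffOn_const
  have hA0 : 0 ≤ area g φ η 0 (fun _ => 1) :=
    area_nonneg hg hd hw (abs_lt.2 h0I) hone fun _ _ => zero_le_one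
  set A := fun τ => area g φ η τ (fun _ => 1) with hA
  set V := fun τ => Univ.gVol g (sub φ τ)
  suffices h : Real.pi ^ 3 * l * V 0 ≤ 2 * C * A 0 by
    have h1 : A 0 * (2 * C) ≤ A 0 * (alpha * l ^ 5 * B + 2 * (43 * Real.pi ^ 3 / 720) +
        Real.pi ^ 3 * (l * Real.sqrt ε)) := by
      refine mul_le_mul_of_nonneg_left ?_ hA0
      have : 0 ≤ Real.pi ^ 3 * (l * Real.sqrt ε) := by positivity
      simp only [C]
      linarith
    simp only [V, hA] at h h1
    linarith
  by_contra hcon
  rw [not_le] at hcon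
  -- a weight concentrated at levels just below zero
  set d := (Real.pi ^ 3 * l * V 0 - 2 * C * A 0) / 3 with hd0
  have hdpos : 0 < d := by rw [hd0]; linarith
  have hVc : ContinuousAt (fun τ => Real.pi ^ 3 * l * V τ) 0 :=
    ((gVol_continuous hg hd hw).continuousAt (isOpen_Ioo.mem_nhds h0I)).const_mul _
  have hAc : ContinuousAt (fun τ => 2 * C * A τ) 0 :=
    ((area_continuous hg hd hw hone).continuousAt (isOpen_Ioo.mem_nhds h0I)).const_mul _
  obtain ⟨δ, hδ, hnear⟩ := Metric.eventually_nhds_iff.1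
    ((((Metric.tendsto_nhds.1 hVc) d hdpos).and ((Metric.tendsto_nhds.1 hAc) d hdpos)).and
      (eventually_nhdsWithin_iff.1 hB))
  set r := min δ (η / 2) / 2 with hr0
  have hr : 0 < r := by rw [hr0]; have := hw.1; positivity
  obtain ⟨hkc, hk01, hksupp, hkone⟩ := tent_props (-r) hr
  set k := tent (-r) r
  have hks : ∀ s, k s ≠ 0 → s ∈ Ioo (-(η / 2)) 0 ∧ dist s 0 < δ := fun s h => by
    obtain ⟨h1, h2⟩ := abs_lt.1 (hksupp s h)
    have h3 : 2 * r ≤ δ ∧ 2 * r ≤ η / 2 := by
      rw [hr0]; constructor <;> linarith [min_le_left δ (η / 2), min_le_right δ (η / 2)]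
    rw [Real.dist_eq, sub_zero, abs_lt]
    refine ⟨⟨?_, ?_⟩, ?_, ?_⟩ <;> linarith
  have hk1 : ∀ s, k s ≠ 0 → |s| < η / 2 := fun s h =>
    abs_lt.2 ⟨(hks s h).1.1, by linarith [(hks s h).1.2, hw.1]⟩
  have hW := weighted hg hc hs hd hw hkc (fun s => (hk01 s).1) (fun s h => (hks s h).1) hl hε
    (fun s h => (hnear (hks s h).2).2 (hks s h).1.2) hB0
  have hdc : Continuous (dens g) := (contDiff_dens hg).continuous
  have hdn : ∀ x, 0 ≤ dens g x := fun x => (dens_pos hg x).le
  have hkcs : HasCompactSupport k := by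
    refine HasCompactSupport.intro isCompact_Icc (K := Icc (-(η / 2)) 0) fun s hs => ?_
    by_contra h
    exact hs (Ioo_subset_Icc_self (hks s h).1)
  have hK : Integrable k := hkc.integrable_of_hasCompactSupport hkcs
  set K := ∫ s, k s
  have hKpos : 0 < K := hkc.integral_pos_of_hasCompactSupport_nonneg_nonzero hkcs
    (fun s => (hk01 s).1) (x := -r) (by rw [hkone]; exact one_ne_zero)
  -- the right-hand side
  set Y := fun y => k (φ y) * gradLen g φ y * C * dens g y
  have hYc : Continuous Y :=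
    (((hkc.comp hd.smooth.continuous).mul (gradLen_continuous hg hd.smooth)).mul continuous_const).mul hdc
  have hYs : HasCompactSupport Y := by
    obtain ⟨R, hR⟩ := sub_subset_ball hd zero_le_one
    refine HasCompactSupport.intro (isCompact_closedBall (0 : Space 6) R) fun y hy => ?_
    rcases eq_or_ne (k (φ y)) 0 with h | h
    · simp [Y, h]
    · exact absurd (hR (show y ∈ sub φ 0 from (hks _ h).1.2)) hy
  have hY0 : ∀ y, 0 ≤ Y y := fun y =>
    mul_nonneg (mul_nonneg (mul_nonneg (hk01 _).1 (gradLen_nonneg g φ y)) hC) (hdn y)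
  have hRHS : ∫⁻ y, ENNReal.ofReal (k (φ y) * gradLen g φ y * C) * ENNReal.ofReal (dens g y) =
      ENNReal.ofReal (C * ∫ s, k s * A s) := by
    rw [coarea hg hd hw hone hkc hk1, ← integral_const_mul,
      ofReal_integral_eq_lintegral_ofReal]
    · refine lintegral_congr fun y => ?_
      rw [← ENNReal.ofReal_mul' (hdn y)]
      exact congrArg ENNReal.ofReal (by ring)
    · exact (hYc.integrable_of_hasCompactSupport hYs).congr (ae_of_all _ fun y => by
        simp only [Y]; ring)
    · exact ae_of_all _ fun y => le_of_le_of_eq (hY0 y) (by simp only [Y]; ring)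
  -- the left-hand side
  have hLHS : ENNReal.ofReal (K * (Real.pi ^ 3 * l * V 0 - d)) ≤
      ∫⁻ x, (∫⁻ s in Ioo (φ x) 1, ENNReal.ofReal (k s)) *
        ENNReal.ofReal (Real.pi ^ 3 * l) * ENNReal.ofReal (dens g x) := by
    have hsub : MeasurableSet {p : Space 6 × ℝ | φ p.1 < p.2} :=
      measurableSet_lt (hd.smooth.continuous.measurable.comp measurable_fst) measurable_snd
    set J : Space 6 → ℝ → ℝ≥0∞ := fun x s => {p : Space 6 × ℝ | φ p.1 < p.2}.indicator
      (fun p => ENNReal.ofReal (k p.2) * ENNReal.ofReal (Real.pi ^ 3 * l) *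
        ENNReal.ofReal (dens g p.1)) (x, s)
    have hJm : Measurable (Function.uncurry J) :=
      (((hkc.measurable.comp measurable_snd).ennreal_ofReal.mul measurable_const).mul
        (hdc.measurable.comp measurable_fst).ennreal_ofReal).indicator hsub
    have e1 : ∀ x, (∫⁻ s in Ioo (φ x) 1, ENNReal.ofReal (k s)) *
        ENNReal.ofReal (Real.pi ^ 3 * l) * ENNReal.ofReal (dens g x) = ∫⁻ s, J x s := fun x => by
      rw [← lintegral_mul_const' _ _ ENNReal.ofReal_ne_top,
        ← lintegral_mul_const' _ _ ENNReal.ofReal_ne_top, ← lintegral_indicator measurableSet_Ioo]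
      refine lintegral_congr fun s => ?_
      simp only [J, indicator_apply, Set.mem_ofPred_eq, mem_Ioo]
      rcases eq_or_ne (k s) 0 with h | h
      · simp [h]
      · have : s < 1 := by linarith [(hks s h).1.2]
        simp [this]
    simp only [e1]
    rw [lintegral_lintegral_swap hJm.aemeasurable]
    have e2 : ENNReal.ofReal (K * (Real.pi ^ 3 * l * V 0 - d)) =
        ∫⁻ s, ENNReal.ofReal (k s * (Real.pi ^ 3 * l * V 0 - d)) := by
      rw [← integral_mul_const, ofReal_integral_eq_lintegral_ofReal (hK.mul_const _)]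
      refine ae_of_all _ fun s => mul_nonneg (hk01 s).1 ?_
      have hA' : 0 ≤ 2 * C * A 0 := by positivity
      rw [hd0]
      linarith
    rw [e2]
    refine lintegral_mono fun s => ?_
    rcases eq_or_ne (k s) 0 with h | h
    · simp [h]
    have e3 : ∫⁻ x, J x s = ENNReal.ofReal (k s) * ENNReal.ofReal (Real.pi ^ 3 * l) *
        ∫⁻ x in sub φ s, ENNReal.ofReal (dens g x) := by
      rw [← lintegral_const_mul' _ _ (ENNReal.mul_ne_top ENNReal.ofReal_ne_top
        ENNReal.ofReal_ne_top), ← lintegral_indicator (measurableSet_sub hd.smooth.continuous s)]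
      rfl
    rw [e3, ← ofReal_integral_eq_lintegral_ofReal
      (integrableOn_sub hd (by linarith [(hks s h).1.2]) hdc) (ae_of_all _ hdn),
      ← ENNReal.ofReal_mul (hk01 s).1, ← ENNReal.ofReal_mul (mul_nonneg (hk01 s).1 (by positivity))]
    refine ENNReal.ofReal_le_ofReal ?_
    have h1 := (abs_lt.1 (by simpa [Real.dist_eq] using (hnear (hks s h).2).1.1)).1
    rw [mul_assoc (k s)]
    refine mul_le_mul_of_nonneg_left ?_ (hk01 s).1
    simp only [V, Univ.gVol] at h1 ⊢
    linarith
  -- comparing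
  have hAle : ∫ s, k s * A s ≤ ∫ s, k s * ((2 * C * A 0 + d) / (2 * C)) := by
    refine integral_mono_of_nonneg (ae_of_all _ fun s => ?_) (hK.mul_const _)
      (ae_of_all _ fun s => ?_)
    · rcases eq_or_ne (k s) 0 with h | h
      · simp [h]
      · exact mul_nonneg (hk01 s).1 (area_nonneg hg hd hw (hk1 s h) hone fun _ _ => zero_le_one)
    · rcases eq_or_ne (k s) 0 with h | h
      · simp [h]
      refine mul_le_mul_of_nonneg_left ?_ (hk01 s).1
      have h1 := (abs_lt.1 (by simpa [Real.dist_eq] using (hnear (hks s h).2).1.2)).2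
      have hC' : 0 < 2 * C := by simp only [C, alpha]; positivity
      rw [le_div_iff₀ hC']
      linarith
  have hkey := hLHS.trans hW
  rw [hRHS, ← ENNReal.ofReal_ofNat 2, ← ENNReal.ofReal_mul zero_le_two] at hkey
  have hnn : 0 ≤ ∫ s, k s * A s := integral_nonneg fun s => by
    rcases eq_or_ne (k s) 0 with h | h
    · simp [h]
    · exact mul_nonneg (hk01 s).1 (area_nonneg hg hd hw (hk1 s h) hone fun _ _ => zero_le_one)
  rw [ENNReal.ofReal_le_ofReal_iff (by positivity)] at hkey
  rw [integral_mul_const] at hAle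
  have hC' : 0 < 2 * C := by simp only [C, alpha]; positivity
  have h5 := mul_le_mul_of_nonneg_left hAle hC'.le
  rw [show 2 * C * (K * ((2 * C * A 0 + d) / (2 * C))) = K * (2 * C * A 0 + d) by
    rw [mul_left_comm, mul_div_cancel₀ _ hC'.ne']] at h5
  have h6 : K * (2 * C * A 0 + d) < K * (Real.pi ^ 3 * l * V 0 - d) :=
    mul_lt_mul_of_pos_left (by rw [hd0]; linarith) hKpos
  linarith

end

end Vale.Agent.P219.Six
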